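import Vale.Agent.P073.H696.BSpec
import Vale.Agent.P073.Net.NC

/-!
# P073, block B09, [MOD]: the modulus of continuity of the target homeomorphism
-/

open Set Metric Topology Filter

namespace Vale.Agent.P073.H819

open Vale.Agent.P073
open Vale.Agent.P073.St (V)
open Vale.Agent.P073.AB (Idx)
open Vale.Agent.P073.H304 (Nb)
open Vale.Agent.P073.H726 (LBOn)
open _root_.P073 (ConHomeo)
open _root_.P073.Net (dyc IsTile SizeFn)

theorem isBounded_of_domain {Λ : Set V} (h : St.IsBoundedDomain Λ) : Bornology.IsBounded Λ := by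
  obtain ⟨-, -, R, hR⟩ := h
  rw [isBounded_iff_forall_norm_le]
  refine ⟨R, fun x hx => ?_⟩
  have h1 := hR x hx
  refine le_trans ?_ h1
  have h0 : 0 ≤ St.euc x := Real.sqrt_nonneg _
  rw [pi_norm_le_iff_of_nonneg h0]
  intro i
  rw [Real.norm_eq_abs]
  unfold St.euc
  apply Real.abs_le_sqrt
  exact Finset.single_le_sum (f := fun k => x k ^ 2) (fun k _ => sq_nonneg (x k)) (Finset.mem_univ i)

/-- **[MOD]**: a modulus of continuity -/
theorem exists_mod {Ω Λ : Set V} {f : V → V} {ρ : V → ℝ} {J₀ : Set Idx} (Tt : ConHomeo Λ Λ)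
    (hΩ : IsOpen Ω) (hΛ : St.IsBoundedDomain Λ) (hf : ContinuousOn f Ω) (hfm : MapsTo f Ω Λ)
    (hρ : SizeFn Λ ρ) (hJ : ∀ t ∈ J₀, IsTile ρ 0 t.1 t.2) {δ : ℝ} (hδ : 0 < δ) {c₀ : ℝ}
    (hc₀ : c₀ ≤ 1) :
    ∃ δs : V → ℝ, LBOn Ω δs ∧ H696.Mod Ω Λ f δ c₀ J₀ Tt.toFun δs := by
  have hΛo : IsOpen Λ := hΛ.1
  have hne : (Λᶜ).Nonempty := H726.compl_nonempty (isBounded_of_domain hΛ)
  set P : V → ℝ → Prop := fun a r => ∀ y ∈ Λ, ∀ y' ∈ Λ, ‖y - f a‖ ≤ infDist (f a) Λᶜ / 4 →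
    ‖y - y'‖ ≤ r → ∀ t ∈ J₀, Tt.toFun y ∈ Nb 0 {t} (2 * c₀) →
      ‖Tt.toFun y - Tt.toFun y'‖ ≤ δ / 2 / 2 ^ t.1 with hP
  have hPm : ∀ a r r', r' ≤ r → P a r → P a r' := fun a r r' hr h y hy y' hy' h1 h2 =>
    h y hy y' hy' h1 (h2.trans hr)
  have hloc : ∀ x ∈ Ω, ∃ c > 0, c ≤ 1 ∧ ∀ᶠ a in 𝓝 x, P a c := by
    intro x hx
    have hfx := hfm hx
    set d : ℝ := infDist (f x) Λᶜ with hd
    have hd0 : 0 < d := (hΛo.isClosed_compl.notMem_iff_infDist_pos hne).1 fun h => h hfx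
    have hball : ∀ y, ‖y - f x‖ < d → y ∈ Λ := by
      intro y hy
      by_contra hc
      have : infDist (f x) Λᶜ ≤ dist (f x) y := infDist_le_dist_of_mem hc
      rw [dist_comm, dist_eq_norm] at this
      linarith
    have hK1 : closedBall (f x) (d / 2) ⊆ Λ := fun y hy => hball y (by
      rw [mem_closedBall, dist_eq_norm] at hy; linarith)
    have hK2 : closedBall (f x) (3 * d / 4) ⊆ Λ := fun y hy => hball y (by
      rw [mem_closedBall, dist_eq_norm] at hy; linarith)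
    -- lower bound for the sizes of the tiles
    have hρc : Continuous ρ := _root_.P073.Net.NC.cont hρ
    obtain ⟨y₀, hy₀, hmin⟩ := (isCompact_closedBall (f x) (d / 2)).exists_isMinOn
      ⟨f x, mem_closedBall_self (by positivity)⟩
      (f := fun y => ρ (Tt.toFun y)) (hρc.comp_continuousOn (Tt.cont.mono hK1))
    set s : ℝ := ρ (Tt.toFun y₀) with hs
    have hs0 : 0 < s := hρ.pos _ (Tt.mapsTo (hK1 hy₀))
    have hsize : ∀ y ∈ closedBall (f x) (d / 2), ∀ t ∈ J₀,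
        Tt.toFun y ∈ Nb 0 {t} (2 * c₀) → s / 6 ≤ 1 / 2 ^ t.1 := by
      intro y hy t ht hyt
      obtain ⟨t', ht', x', hx', hxy⟩ := hyt
      rw [mem_singleton_iff] at ht'
      subst ht'
      have hcl : IsClosed (dyc (0 : V) t'.1 t'.2) := by
        rw [H851.dyc_ball]; exact isClosed_closedBall
      have h1 : x' ∈ dyc 0 t'.1 t'.2 := hcl.frontier_subset hx'
      have h2 := _root_.P073.Net.NC.upper hρ (hJ t' ht) h1
      have h3 := hρ.lip (Tt.toFun y) x'
      have h4 : s ≤ ρ (Tt.toFun y) := hmin hy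
      have h5 : (0:ℝ) < 2 ^ t'.1 := by positivity
      have e1 : (4:ℝ) / 2 ^ t'.1 = 4 * (1 / 2 ^ t'.1) := by ring
      have e2 : 2 * c₀ / (2:ℝ) ^ t'.1 = 2 * c₀ * (1 / 2 ^ t'.1) := by ring
      have h6 : (0:ℝ) < 1 / 2 ^ t'.1 := by positivity
      rw [e1] at h2
      rw [e2] at hxy
      nlinarith
    -- uniform continuity
    have huc := (isCompact_closedBall (f x) (3 * d / 4)).uniformContinuousOn_of_continuous
      (Tt.cont.mono hK2)
    rw [Metric.uniformContinuousOn_iff] at huc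
    obtain ⟨c, hc, huc⟩ := huc (δ / 2 * (s / 6)) (by positivity)
    have hcpos : 0 < min (min (c / 2) (d / 4)) 1 := by positivity
    refine ⟨min (min (c / 2) (d / 4)) 1, hcpos, min_le_right _ _, ?_⟩
    have hcf : ∀ᶠ a in 𝓝 x, ‖f a - f x‖ < d / 8 := by
      have h1 : ContinuousAt f x := hf.continuousAt (hΩ.mem_nhds hx)
      have h2 : Tendsto (fun a => ‖f a - f x‖) (𝓝 x) (𝓝 ‖f x - f x‖) :=
        ((h1.sub continuousAt_const).norm)
      rw [sub_self, norm_zero] at h2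
      exact h2.eventually_lt_const (by positivity)
    filter_upwards [hcf] with a ha y hy y' hy' h1 h2 t ht hyt
    have h3 : infDist (f a) Λᶜ ≤ d + ‖f a - f x‖ := by
      have := infDist_le_infDist_add_dist (s := Λᶜ) (x := f a) (y := f x)
      rwa [dist_eq_norm] at this
    have h4 : ‖y - f x‖ ≤ d / 2 := by
      have := norm_sub_le_norm_sub_add_norm_sub y (f a) (f x)
      linarith
    have hr1 : min (min (c / 2) (d / 4)) 1 ≤ c / 2 := (min_le_left _ _).trans (min_le_left _ _)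
    have hr2 : min (min (c / 2) (d / 4)) 1 ≤ d / 4 := (min_le_left _ _).trans (min_le_right _ _)
    have h5 : ‖y' - f x‖ ≤ 3 * d / 4 := by
      have := norm_sub_le_norm_sub_add_norm_sub y' y (f x)
      rw [norm_sub_rev y' y] at this
      linarith
    have hyK : y ∈ closedBall (f x) (d / 2) := by rwa [mem_closedBall, dist_eq_norm]
    have h6 := huc y (by rw [mem_closedBall, dist_eq_norm]; linarith) y'
      (by rwa [mem_closedBall, dist_eq_norm]) (by rw [dist_eq_norm]; linarith)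
    rw [dist_eq_norm] at h6
    have h7 := hsize y hyK t ht hyt
    calc ‖Tt.toFun y - Tt.toFun y'‖ ≤ δ / 2 * (s / 6) := h6.le
      _ ≤ δ / 2 * (1 / 2 ^ t.1) := by gcongr
      _ = δ / 2 / 2 ^ t.1 := by ring
  -- the supremum
  set S : V → Set ℝ := fun a => {r | r ≤ 1 ∧ P a r} with hS
  have hbdd : ∀ a, BddAbove (S a) := fun a => ⟨1, fun r hr => hr.1⟩
  refine ⟨fun a => sSup (S a) / 2, fun x hx => ?_, ?_⟩
  · obtain ⟨c, hc, hc1, h1⟩ := hloc x hx
    refine ⟨c / 2, by positivity, ?_⟩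
    filter_upwards [h1] with a ha _
    have := le_csSup (hbdd a) (show c ∈ S a from ⟨hc1, ha⟩)
    show c / 2 ≤ sSup (S a) / 2
    linarith
  · intro a ha y hy y' hy' h1 h2
    obtain ⟨c, hc, hc1, h3⟩ := hloc a ha
    have hcS : c ∈ S a := ⟨hc1, h3.self_of_nhds⟩
    have h4 := le_csSup (hbdd a) hcS
    obtain ⟨r, hr, hlt⟩ := exists_lt_of_lt_csSup ⟨c, hcS⟩
      (show sSup (S a) / 2 < sSup (S a) by linarith)
    exact hr.2 y hy y' hy' h1 (h2.trans hlt.le)

end Vale.Agent.P073.H819
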