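import Vale.Agent.P073.H407.PlateT
import Vale.Agent.P073.H239.FSpec

/-!
# P073, block B10, rank two: **[PLATE-B]**, the choice of the plates

407's choice of the plates of the middle plane, in the form of 239's `PFam`: a finite family of
disjoint flat boxes; most of the small squares of the middle plane are mapped by `f` well inside the
full zones of the collapse `fam`.  The plates do not depend on the generation of the small squares.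
-/

open Set Metric Topology Filter MeasureTheory
open scoped ENNReal

namespace Vale.Agent.P073.H819

open Vale.Agent.P073.St (V)
open Vale.Agent.P073.AB
open Vale.Agent.P073.H194 (sInt)
open Vale.Agent.P073.H235 (P2 GSet)
open Vale.Agent.P073.H239 (PFam bx dd DD fn bx_eq dd_le dd_nonneg)
open Vale.Agent.P073.H407 (PlatesAt P2_two P2_ne norm_P2 norm_P2_sub_le gsq mem_gsq boxes
  eq_of_mem_pbox pbox_subset_squ squ_sub_of_subs norm_sub_le_squ mem_pbox_of_near exists_osc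
  exists_plates sArea sArea_mono sArea_union_le isClosed_pbox sArea_compl_pbox_le
  sArea_boxes_le isClosed_boxes gsq_count four_pow_eq)
open Vale.Agent.P073.SQ (ev)
open _root_.P073 (ConHomeo)
open _root_.P073.Plate (pbox)
open _root_.P073.GBM (mem_squ)

/-- the squares `k` of generation `m₀ + d` are near one plate -/
theorem near_plate {f : V → V} {κ ϑ : ℝ} {Λ : Set V} {v : V} {m₀ : ℕ}
    {S₀ : Finset (Fin 3 → ℤ)}
    {S0 : Finset (Idx × Fin 3)} {n : ℕ} {G : Set V} {J : Finset (Fin 3 → ℤ)}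
    {a : (Fin 3 → ℤ) → V} (hκ : 0 < κ) (hκϑ : κ ≤ ϑ / 256)
    (H : PlatesAt f P2 κ ϑ Λ v S0 2 n G J a) {d₁ : ℕ} (hn : n = m₀ + d₁) {d : ℕ}
    (hd : 1 / 2 ^ (m₀ + d) ≤ κ / 2 ^ n)
    (hosc : ∀ k₀ ∈ S₀, ∀ x ∈ squ v ((m₀, k₀), 2), ∀ y ∈ squ v ((m₀, k₀), 2),
      ‖x - y‖ ≤ 1 / 2 ^ (m₀ + d) → ‖f x - f y‖ ≤ κ / 2 ^ n) {k : Fin 3 → ℤ}
    (hk : k ∈ gsq v m₀ 2 S₀ d (G ∩ boxes v m₀ 2 S₀ d₁ (3 * ϑ))) :
    ∃ z ∈ J, ∀ x ∈ squ v ((m₀ + d, k), 2), x ∈ pbox v ((n, z), 2) (2 * ϑ / 2 ^ n) 0 ∧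
      ∀ y, ‖y - f x‖ ≤ κ / 2 ^ n → ‖y - (P2 x + a z)‖ ≤ 4 * κ / 2 ^ n := by
  have h2n : (0:ℝ) < 2 ^ n := by positivity
  have hϑ0 : 0 < ϑ := by linarith
  obtain ⟨k₀, hk₀, hkk, x₀, hx₀, hx₀G, hx₀b⟩ := mem_gsq.1 hk
  obtain ⟨k₁, hk₁, hx₁⟩ := mem_iUnion₂.1 hx₀b
  obtain ⟨z, hz, hxz⟩ := mem_iUnion₂.1 hx₁
  rw [← hn] at hxz
  -- the plate
  obtain ⟨z', hz', hxz'⟩ := H.cover x₀ hx₀G
  have hzz : z = z' := by
    have h0 : (0:ℝ) < 3 * ϑ / 2 ^ n := by positivity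
    refine eq_of_mem_pbox h0 ?_ hxz hxz'
    have h1 := (mem_squ.1 (pbox_subset_squ h0.le hxz)).1
    have h2 := (mem_squ.1 hxz').1
    rw [h1] at h2
    have h3 : (z 2 : ℝ) / 2 ^ n = z' 2 / 2 ^ n := by
      have : v 2 + (z 2 : ℝ) / 2 ^ n = v 2 + z' 2 / 2 ^ n := h2
      linarith
    have h4 : (z 2 : ℝ) = z' 2 := by
      field_simp at h3
      exact h3
    exact_mod_cast h4
  subst hzz
  refine ⟨z, hz', fun x hx => ⟨?_, fun y hxy => ?_⟩⟩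
  · -- the small square is in the inner part of the plate
    refine mem_pbox_of_near hxz ?_ (?_ : ‖x₀ - x‖ ≤ _)
    · rw [(mem_squ.1 hx).1, (mem_squ.1 hx₀).1]
    · refine (norm_sub_le_squ hx₀ hx).trans (hd.trans ?_)
      have e : 3 * ϑ / 2 ^ n - 2 * ϑ / 2 ^ n = ϑ / 2 ^ n := by ring
      rw [e]
      gcongr
      linarith
  · have hx₀S := squ_sub_of_subs hkk hx₀
    have hxS := squ_sub_of_subs hkk hx
    have hxx : ‖x - x₀‖ ≤ 1 / 2 ^ (m₀ + d) := norm_sub_le_squ hx hx₀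
    have h1 := H.near z hz' x₀ ⟨hx₀G, pbox_subset_squ (by positivity) hxz⟩
    have h2 := hosc k₀ hk₀ x hxS x₀ hx₀S hxx
    have h3 : ‖P2 x₀ - P2 x‖ ≤ κ / 2 ^ n := by
      refine (norm_P2_sub_le _ _).trans ?_
      rw [norm_sub_rev]
      exact hxx.trans hd
    have e : y - (P2 x + a z) = (y - f x) + (f x - f x₀) + (f x₀ - (P2 x₀ + a z)) +
        (P2 x₀ - P2 x) := by abel
    rw [e]
    refine (norm_add_le _ _).trans ?_
    have h4 : ‖(y - f x) + (f x - f x₀) + (f x₀ - (P2 x₀ + a z))‖ ≤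
        κ / 2 ^ n + κ / 2 ^ n + κ / 2 ^ n :=
      (norm_add_le _ _).trans (add_le_add ((norm_add_le _ _).trans (add_le_add hxy h2)) h1)
    have e2 : 4 * κ / 2 ^ n = κ / 2 ^ n + κ / 2 ^ n + κ / 2 ^ n + κ / 2 ^ n := by ring
    rw [e2]
    exact add_le_add h4 h3

/-- the lower corner of the plate -/
noncomputable def plo (v : V) (n : ℕ) (a : (Fin 3 → ℤ) → V) (mt : ℕ) (t : (Fin 3 → ℤ) → ℤ)
    (w : ℝ) (z : Fin 3 → ℤ) : V := fun j =>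
  if j = 2 then t z / 2 ^ mt else v j + z j / 2 ^ n + a z j + w

/-- the upper corner of the plate -/
noncomputable def phi (v : V) (n : ℕ) (a : (Fin 3 → ℤ) → V) (mt : ℕ) (t : (Fin 3 → ℤ) → ℤ)
    (w : ℝ) (z : Fin 3 → ℤ) : V := fun j =>
  if j = 2 then t z / 2 ^ mt else v j + (z j + 1) / 2 ^ n + a z j - w

/-- a point of the box of a plate is close to the plate -/
theorem exists_plate_pt {v : V} {n : ℕ} {a : (Fin 3 → ℤ) → V} {mt : ℕ} {t : (Fin 3 → ℤ) → ℤ}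
    {z : Fin 3 → ℤ} {κ ϑ w R : ℝ} (hw : ϑ / 2 ^ n ≤ w - R)
    (ht : |(t z : ℝ) / 2 ^ mt - a z 2| ≤ κ / 2 ^ n) {y : V}
    (hy : y ∈ bx (plo v n a mt t w z) (phi v n a mt t w z) R) :
    ∃ x ∈ pbox v ((n, z), 2) (ϑ / 2 ^ n) 0, ‖y - (P2 x + a z)‖ ≤ R + κ / 2 ^ n := by
  rw [bx_eq] at hy
  obtain ⟨hy1, hy2⟩ := hy
  have hR : 0 ≤ R + κ / 2 ^ n := by
    have h1 := hy1 2
    have h2 := hy2 2
    simp only [plo, phi, if_true] at h1 h2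
    have h3 := abs_nonneg ((t z : ℝ) / 2 ^ mt - a z 2)
    linarith
  refine ⟨fun j => if j = 2 then v 2 + z 2 / 2 ^ n else y j - a z j, ⟨?_, fun j hj => ?_⟩, ?_⟩
  · show |(if (2 : Fin 3) = 2 then v 2 + (z 2 : ℝ) / 2 ^ n else _) - (v 2 + z 2 / 2 ^ n)| ≤ 0
    rw [if_pos rfl, sub_self, abs_zero]
  · simp only at hj ⊢
    rw [if_neg hj]
    have h1 := hy1 j
    have h2 := hy2 j
    simp only [plo, phi, if_neg hj] at h1 h2
    constructor <;> linarith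
  · rw [pi_norm_le_iff_of_nonneg hR]
    intro j
    by_cases hj : j = 2
    · subst hj
      have h1 := hy1 2
      have h2 := hy2 2
      simp only [plo, phi, if_true] at h1 h2
      rw [Pi.sub_apply, Pi.add_apply, P2_two, zero_add, Real.norm_eq_abs]
      rw [abs_le] at ht ⊢
      constructor <;> linarith [ht.1, ht.2]
    · rw [Pi.sub_apply, Pi.add_apply, P2_ne _ hj, if_neg hj]
      have : y j - (y j - a z j + a z j) = 0 := by ring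
      rw [this, norm_zero]
      exact hR

/-- **the family of plates** -/
theorem exists_pfam {f : V → V} {κ ϑ b : ℝ} {Λ : Set V} {v : V}
    {S0 : Finset (Idx × Fin 3)} {n : ℕ} {G : Set V} {J : Finset (Fin 3 → ℤ)}
    {a : (Fin 3 → ℤ) → V} (H : PlatesAt f P2 κ ϑ Λ v S0 2 n G J a) (hκ : 0 < κ)
    (hb : 0 < b) (hb1 : b ≤ 1 / 2) (hκϑ : κ ≤ b * ϑ / 256) (hϑ1 : ϑ ≤ 1) {mt : ℕ}
    (hmt : 1 / 2 ^ mt ≤ κ / 2 ^ n) :
    ∃ (lo hi : {z // z ∈ J} → V), PFam Λ b (fun _ => 2) lo hi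
        (fun _ => 10 * κ / b / 2 ^ n) ∧ (∀ z, ∃ t : ℤ, lo z 2 = t / 2 ^ mt) ∧
      (∀ z : {z // z ∈ J}, ∀ y ∈ bx (lo z) (hi z) (10 * κ / b / 2 ^ n), ∃ s ∈ S0, ∃ x ∈ squ v s,
        ‖y - f x‖ ≤ 2 / 2 ^ n) ∧
      ∀ z : {z // z ∈ J}, ∀ x ∈ pbox v ((n, z.1), 2) (2 * ϑ / 2 ^ n) 0, ∀ y,
        ‖y - (P2 x + a z)‖ ≤ 4 * κ / 2 ^ n →
          |y 2 - lo z 2| ≤ b / 2 * (10 * κ / b / 2 ^ n) ∧ dd 2 (lo z) (hi z) y = 0 := by
  classical
  have hn : (0:ℝ) < 2 ^ n := by positivity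
  have hm : (0:ℝ) < 2 ^ mt := by positivity
  have hϑ0 : 0 < ϑ := by
    have : 0 < b * ϑ := by linarith
    exact (pos_iff_pos_of_mul_pos this).1 hb
  have hκb : κ / b ≤ ϑ / 256 := by
    rw [div_le_iff₀ hb]; linarith
  have hκ1 : κ ≤ ϑ / 256 := by
    have : b * ϑ ≤ 1 * ϑ := by gcongr; linarith
    linarith
  set t : (Fin 3 → ℤ) → ℤ := fun z => ⌊a z 2 * 2 ^ mt⌋ with ht
  have htz : ∀ z, |(t z : ℝ) / 2 ^ mt - a z 2| ≤ κ / 2 ^ n := by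
    intro z
    refine le_trans ?_ hmt
    have h1 := Int.floor_le (a z 2 * 2 ^ mt)
    have h2 := Int.lt_floor_add_one (a z 2 * 2 ^ mt)
    have h3 : (t z : ℝ) / 2 ^ mt ≤ a z 2 := by rw [div_le_iff₀ hm]; exact h1
    have h4 : a z 2 < (t z : ℝ) / 2 ^ mt + 1 / 2 ^ mt := by
      rw [← add_div, lt_div_iff₀ hm]; exact h2
    rw [abs_le]
    constructor <;> linarith
  obtain ⟨R, hR⟩ : ∃ R : ℝ, R = 10 * κ / b / 2 ^ n := ⟨_, rfl⟩
  have hR0 : 0 < R := by rw [hR]; positivity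
  have hR1 : R ≤ 10 / 256 * ϑ / 2 ^ n := by
    rw [hR]
    gcongr
    have : 10 * κ / b = 10 * (κ / b) := by ring
    rw [this]
    linarith
  obtain ⟨w, hw⟩ : ∃ w : ℝ, w = 2 * ϑ / 2 ^ n - 4 * κ / 2 ^ n := ⟨_, rfl⟩
  have hκn : κ / 2 ^ n ≤ 1 / 256 * ϑ / 2 ^ n := by
    gcongr; linarith
  have hwR : ϑ / 2 ^ n ≤ w - R := by
    have e1 : 4 * κ / 2 ^ n = 4 * (κ / 2 ^ n) := by ring
    have e2 : 2 * ϑ / 2 ^ n = 2 * (ϑ / 2 ^ n) := by ring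
    have e3 : 10 / 256 * ϑ / 2 ^ n = 10 / 256 * (ϑ / 2 ^ n) := by ring
    have e4 : 1 / 256 * ϑ / 2 ^ n = 1 / 256 * (ϑ / 2 ^ n) := by ring
    have h0 : 0 < ϑ / 2 ^ n := by positivity
    rw [hw, e1, e2]
    rw [e3] at hR1
    rw [e4] at hκn
    linarith
  have hRκ : R + κ / 2 ^ n ≤ 11 / 256 * ϑ / 2 ^ n := by
    have e3 : 10 / 256 * ϑ / 2 ^ n = 10 / 256 * (ϑ / 2 ^ n) := by ring
    have e4 : 1 / 256 * ϑ / 2 ^ n = 1 / 256 * (ϑ / 2 ^ n) := by ring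
    have e5 : 11 / 256 * ϑ / 2 ^ n = 11 / 256 * (ϑ / 2 ^ n) := by ring
    rw [e3] at hR1
    rw [e4] at hκn
    rw [e5]
    linarith
  rw [← hR]
  refine ⟨fun z => plo v n a mt t w z.1, fun z => phi v n a mt t w z.1, ⟨hb, hb1, fun _ => hR0,
    fun z => ?_, fun z y hy => ?_, fun z z' hzz => ?_⟩, fun z => ⟨t z.1, ?_⟩, fun z y hy => ?_, ?_⟩
  · show plo v n a mt t w z.1 2 = phi v n a mt t w z.1 2
    simp only [plo, phi, if_true]
  · obtain ⟨x, hx, hxy⟩ := exists_plate_pt hwR (htz z.1) hy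
    refine H.inside z.1 z.2 x (pbox_subset_squ (by positivity) hx) ?_
    rw [mem_closedBall, dist_eq_norm]
    refine hxy.trans (hRκ.trans ?_)
    gcongr
    linarith
  · rw [Set.disjoint_left]
    intro y hy hy'
    obtain ⟨x, hx, hxy⟩ := exists_plate_pt hwR (htz z.1) hy
    obtain ⟨x', hx', hxy'⟩ := exists_plate_pt hwR (htz z'.1) hy'
    have h1 := H.sep z.1 z.2 z'.1 z'.2 (fun h => hzz (Subtype.ext h)) x hx x' hx'
    have h2 : ‖(P2 x + a z.1) - (P2 x' + a z'.1)‖ ≤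
        11 / 256 * ϑ / 2 ^ n + 11 / 256 * ϑ / 2 ^ n := by
      have e : (P2 x + a z.1) - (P2 x' + a z'.1) =
          (y - (P2 x' + a z'.1)) - (y - (P2 x + a z.1)) := by
        abel
      rw [e]
      refine (norm_sub_le _ _).trans ?_
      linarith
    have h3 : 11 / 256 * ϑ / 2 ^ n + 11 / 256 * ϑ / 2 ^ n < ϑ / 2 / 2 ^ n := by
      rw [← add_div]
      gcongr
      linarith
    linarith
  · show plo v n a mt t w z.1 2 = _
    simp only [plo, if_true]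
  · obtain ⟨x, hx, hxy⟩ := exists_plate_pt hwR (htz z.1) hy
    obtain ⟨s, hs, hsub⟩ := H.sub z.1 z.2
    obtain ⟨x', hx'G, hx'⟩ := H.meet z.1 z.2
    refine ⟨s, hs, x', hsub hx', ?_⟩
    have h1 := H.near z.1 z.2 x' ⟨hx'G, hx'⟩
    have h2 : ‖P2 x - P2 x'‖ ≤ 1 / 2 ^ n := (norm_P2_sub_le _ _).trans
      (norm_sub_le_squ (pbox_subset_squ (by positivity) hx) hx')
    have e : y - f x' = (y - (P2 x + a z.1)) + (P2 x - P2 x') - (f x' - (P2 x' + a z.1)) := by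
      abel
    rw [e]
    refine (norm_sub_le _ _).trans ?_
    have h3 := norm_add_le (y - (P2 x + a z.1)) (P2 x - P2 x')
    have h4 : 2 / 2 ^ n = 1 / 2 ^ n + 1 / (2:ℝ) ^ n := by ring
    have h5 : 11 / 256 * ϑ / 2 ^ n + κ / 2 ^ n ≤ 1 / 2 ^ n := by
      rw [← add_div]
      gcongr
      linarith
    rw [h4]
    linarith
  · intro z x hx y hy
    constructor
    · show |y 2 - plo v n a mt t w z.1 2| ≤ _
      have h1 : |y 2 - (P2 x 2 + a z.1 2)| ≤ 4 * κ / 2 ^ n := (norm_le_pi_norm _ 2).trans hy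
      rw [P2_two, zero_add] at h1
      have h2 := htz z.1
      have e1 : b / 2 * R = 5 * κ / 2 ^ n := by rw [hR]; field_simp; ring
      have e : 5 * κ / 2 ^ n = 4 * κ / 2 ^ n + κ / 2 ^ n := by ring
      rw [e1, e]
      simp only [plo, if_true]
      rw [abs_le] at h1 h2 ⊢
      constructor <;> linarith [h1.1, h1.2, h2.1, h2.2]
    · refine le_antisymm ((dd_le le_rfl).2 fun p hp => ?_) (dd_nonneg _)
      have h1 : |y p.1 - (P2 x p.1 + a z.1 p.1)| ≤ 4 * κ / 2 ^ n := (norm_le_pi_norm _ p.1).trans hy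
      rw [P2_ne x hp] at h1
      have h2 := hx.2 p.1 hp
      simp only at h2
      rw [abs_le] at h1
      unfold fn
      split_ifs
      · show y p.1 - phi v n a mt t w z.1 p.1 ≤ 0
        simp only [phi, if_neg hp]
        rw [hw]
        linarith [h1.1, h1.2, h2.1, h2.2]
      · show plo v n a mt t w z.1 p.1 - y p.1 ≤ 0
        simp only [plo, if_neg hp]
        rw [hw]
        linarith [h1.1, h1.2, h2.1, h2.2]

/-- **[PLATE-B]**, strongest form: the plates do not depend on the generation of the squares -/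
theorem plateB (C₀ ε b : ℝ) (hC₀ : 0 < C₀) (hε : 0 < ε) (hb : 0 < b) (hb1 : b ≤ 1 / 2) :
    ∃ κ > 0,
    ∀ (Ω Λ : Set V) (f : V → V) (H : V → ℝ≥0∞) (v : V)
    (m₀ : ℕ) (S₀ : Finset (Fin 3 → ℤ)) (B : ℤ), IsOpen Ω → IsOpen Λ → St.IsHomeo Ω Λ f →
    GSet C₀ v Ω f H → (∀ k ∈ S₀, k 2 = B ∧ squ v ((m₀, k), 2) ⊆ Ω) → S₀.card ≤ 4 ^ m₀ →
    ∑ k ∈ S₀, sInt v ((m₀, k), 2) H ≤ ENNReal.ofReal κ → ∀ ε₁ > 0,
    ∃ (n₀ j₀ : ℕ) (J : Finset (Fin 3 → ℤ)) (R r : ℝ) (G : ℕ → Finset (Fin 3 → ℤ)),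
      0 < r ∧ 0 < R ∧ R ≤ ε₁ ∧ r ≤ b / 2 * R ∧
      (∀ n₃ ≥ n₀, (∀ k ∈ G n₃, ∃ k₀ ∈ S₀, squ v ((n₃, k), 2) ⊆ squ v ((m₀, k₀), 2)) ∧
        (S₀.card : ℝ) / 4 ^ m₀ - ((G n₃).card : ℝ) / 4 ^ n₃ ≤ ε) ∧
      ∀ jt ≥ j₀, ∃ (lo hi : {z // z ∈ J} → V), PFam Λ b (fun _ => 2) lo hi (fun _ => R) ∧
        (∀ z, ∃ t : ℤ, lo z 2 = t / 2 ^ jt) ∧
        (∀ z, ∀ y ∈ bx (lo z) (hi z) R, ∃ k ∈ S₀, ∃ x ∈ squ v ((m₀, k), 2), ‖y - f x‖ ≤ ε₁) ∧
        ∀ n₃ ≥ n₀, ∀ k ∈ G n₃, ∃ z, ∀ x ∈ squ v ((n₃, k), 2), ∀ y, ‖y - f x‖ ≤ r →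
          |y 2 - lo z 2| ≤ b / 2 * R ∧ dd 2 (lo z) (hi z) y = 0 := by
  classical
  set ϑ : ℝ := min (1 / 4) (ε / 60) with hϑ
  have hϑ0 : 0 < ϑ := lt_min (by norm_num) (by positivity)
  have hϑ1 : ϑ ≤ 1 / 4 := min_le_left _ _
  have hϑε : 60 * ϑ ≤ ε := by
    have : ϑ ≤ ε / 60 := min_le_right _ _
    linarith
  set κL : ℝ := b * ϑ / 256 with hκL
  have hκL0 : 0 < κL := by positivity
  have hκL1 : κL ≤ ϑ / 256 := by
    rw [hκL]
    have : b * ϑ ≤ 1 * ϑ := by gcongr; linarith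
    linarith
  set kk : ℝ := κL / C₀ with hkk
  have hkk0 : 0 < kk := by positivity
  refine ⟨ε * kk / (2 * C₀), by positivity, ?_⟩
  intro Ω Λ f H v m₀ S₀ B hΩ hΛ hf hGS hS hcard hsum ε₁ hε₁
  obtain ⟨g, hg, hfc, -⟩ := hf
  have hfm : MapsTo f Ω Λ := fun x hx => (hg.1 x hx).1
  have hfi : InjOn f Ω := by
    intro x hx y hy hxy
    rw [← (hg.1 x hx).2, ← (hg.1 y hy).2, hxy]
  -- the good sets
  have hex : ∀ s : Idx × Fin 3, ∃ Gs : Set V, (s.2 = 2 → squ v s ⊆ Ω → (Gs ⊆ squ v s ∧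
      IsClosed Gs ∧ sInt v s (Gsᶜ.indicator 1) ≤ ENNReal.ofReal (C₀ / kk) * sInt v s H ∧
      ∀ x ∈ Gs, ∀ y ∈ Gs, ‖(f x - P2 x) - (f y - P2 y)‖ ≤ C₀ * kk * ‖x - y‖)) := by
    intro s
    by_cases h1 : s.2 = 2
    · by_cases h2 : squ v s ⊆ Ω
      · obtain ⟨Gs, h3, h4, h5, h6⟩ := hGS s h1 h2 kk hkk0
        exact ⟨Gs, fun _ _ => ⟨h3, h4, h5, h6⟩⟩
      · exact ⟨∅, fun _ h => absurd h h2⟩
    · exact ⟨∅, fun h => absurd h h1⟩
  choose Gs hGs using hex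
  set S0 : Finset (Idx × Fin 3) := S₀.image fun k => ((m₀, k), 2) with hS0
  have hS0' : ∀ s ∈ S0, s.1.1 = m₀ ∧ s.2 = 2 ∧ s.1.2 2 = B ∧ squ v s ⊆ Ω := by
    intro s hs
    obtain ⟨k, hk, rfl⟩ := Finset.mem_image.1 hs
    exact ⟨rfl, rfl, (hS k hk).1, (hS k hk).2⟩
  obtain ⟨hcl, hpl⟩ := exists_plates (S0 := S0) (Gs := Gs) hΛ hfc hfi hfm hS0' (L := P2)
    (fun x hx => norm_P2 hx) (κ := κL) (ϑ := ϑ) (ϑ' := ϑ) hκL0.le (by linarith) hϑ0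
    (by linarith) hϑ0 (fun s hs => (hGs s (hS0' s hs).2.1 (hS0' s hs).2.2.2).2.1)
    (fun s hs => (hGs s (hS0' s hs).2.1 (hS0' s hs).2.2.2).1)
    (fun s hs x hx y hy => by
      have h1 := (hGs s (hS0' s hs).2.1 (hS0' s hs).2.2.2).2.2.2 x hx y hy
      have h2 : C₀ * kk = κL := by rw [hkk]; field_simp
      rwa [h2] at h1)
  set G : Set V := ⋃ s ∈ S0, Gs s ∩ pbox v s (ϑ / 2 ^ m₀) 0 with hG
  -- the generation of the plates
  have hlim : Tendsto (fun m : ℕ => (1:ℝ) / 2 ^ m) atTop (𝓝 0) := by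
    have h1 := tendsto_pow_atTop_nhds_zero_of_lt_one (r := (1 / 2 : ℝ)) (by norm_num) (by norm_num)
    refine h1.congr fun m => ?_
    rw [one_div_pow]
  obtain ⟨n, ⟨J, a, HP⟩, hnm, hnε⟩ : ∃ n, (∃ (J : Finset (Fin 3 → ℤ)) (a : (Fin 3 → ℤ) → V),
      PlatesAt f P2 κL ϑ Λ v S0 2 n G J a) ∧ m₀ ≤ n ∧ (1:ℝ) / 2 ^ n < ε₁ / 2 := by
    obtain ⟨n, h⟩ := (hpl.and ((eventually_ge_atTop m₀).and
      (hlim.eventually_lt_const (show 0 < ε₁ / 2 by positivity)))).exists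
    exact ⟨n, h⟩
  obtain ⟨d₁, hd₁⟩ := Nat.exists_eq_add_of_le hnm
  have h2n : (0:ℝ) < 2 ^ n := by positivity
  obtain ⟨δ₀, hδ₀, hosc⟩ := exists_osc hfc (fun k hk => (hS k hk).2)
    (show 0 < κL / 2 ^ n by positivity)
  -- the thresholds
  obtain ⟨N₁, hN₁⟩ := eventually_atTop.1 ((hlim.eventually_lt_const
    (show 0 < κL / 2 ^ n by positivity)).and (hlim.eventually_lt_const hδ₀))
  have hareaP : ∀ d, (S₀.card : ℝ) / 4 ^ m₀ -
      ((gsq v m₀ 2 S₀ d (G ∩ boxes v m₀ 2 S₀ d₁ (3 * ϑ))).card : ℝ) / 4 ^ (m₀ + d) ≤ ε := by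
    intro d
    have hcG : IsClosed (G ∩ boxes v m₀ 2 S₀ d₁ (3 * ϑ)) := hcl.inter (isClosed_boxes _ _ _ _ _ _)
    refine gsq_count (fun k hk => (hS k hk).1) hcG.measurableSet hε.le ?_
    have h1 : ∀ k ∈ S₀, sArea v ((m₀, k), 2) (G ∩ boxes v m₀ 2 S₀ d₁ (3 * ϑ))ᶜ ≤
        ENNReal.ofReal (C₀ / kk) * sInt v ((m₀, k), 2) H +
          ENNReal.ofReal (24 * ϑ * (1 / 2 ^ m₀) ^ 2) := by
      intro k hk
      have hs : ((m₀, k), (2 : Fin 3)) ∈ S0 := Finset.mem_image_of_mem _ hk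
      have h2 : (G ∩ boxes v m₀ 2 S₀ d₁ (3 * ϑ))ᶜ ⊆ (Gs ((m₀, k), 2))ᶜ ∪
          ((pbox v ((m₀, k), 2) (ϑ / 2 ^ m₀) 0)ᶜ ∪ (boxes v m₀ 2 S₀ d₁ (3 * ϑ))ᶜ) := by
        rw [← compl_inter, ← compl_inter, ← inter_assoc]
        refine compl_subset_compl.2 (inter_subset_inter_left _ ?_)
        exact subset_biUnion_of_mem (u := fun s => Gs s ∩ pbox v s (ϑ / 2 ^ m₀) 0) hs
      have hGk := hGs ((m₀, k), 2) rfl (hS k hk).2
      refine (sArea_mono h2).trans ((sArea_union_le hGk.2.1.measurableSet.compl).trans ?_)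
      refine add_le_add hGk.2.2.1 ((sArea_union_le
        (isClosed_pbox _ _ _ _).measurableSet.compl).trans ?_)
      refine (add_le_add (sArea_compl_pbox_le v m₀ k 2 hϑ0.le)
        (sArea_boxes_le (by positivity) hk)).trans ?_
      rw [← ENNReal.ofReal_add (by positivity) (by positivity)]
      apply ENNReal.ofReal_le_ofReal
      apply le_of_eq
      ring
    refine (Finset.sum_le_sum h1).trans ?_
    rw [Finset.sum_add_distrib, ← Finset.mul_sum, Finset.sum_const, nsmul_eq_mul]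
    calc ENNReal.ofReal (C₀ / kk) * ∑ k ∈ S₀, sInt v ((m₀, k), 2) H +
          S₀.card * ENNReal.ofReal (24 * ϑ * (1 / 2 ^ m₀) ^ 2)
        ≤ ENNReal.ofReal (C₀ / kk) * ENNReal.ofReal (ε * kk / (2 * C₀)) +
          ENNReal.ofReal (24 * ϑ) := by
          refine add_le_add (by gcongr) ?_
          rw [← ENNReal.ofReal_natCast, ← ENNReal.ofReal_mul (Nat.cast_nonneg _)]
          apply ENNReal.ofReal_le_ofReal
          have h3 : (S₀.card : ℝ) ≤ 4 ^ m₀ := by exact_mod_cast hcard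
          rw [four_pow_eq]
          calc (S₀.card : ℝ) * (24 * ϑ * (1 / 4 ^ m₀)) ≤ 4 ^ m₀ * (24 * ϑ * (1 / 4 ^ m₀)) := by
                gcongr
            _ = 24 * ϑ := by field_simp
      _ ≤ ENNReal.ofReal ε := by
          rw [← ENNReal.ofReal_mul (by positivity), ← ENNReal.ofReal_add (by positivity)
            (by positivity)]
          apply ENNReal.ofReal_le_ofReal
          have : C₀ / kk * (ε * kk / (2 * C₀)) = ε / 2 := by field_simp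
          rw [this]
          linarith
  have hR : 10 * κL / b / 2 ^ n ≤ ε₁ := by
    have h1 : 10 * κL / b ≤ 1 := by
      have : 10 * κL / b = 10 * ϑ / 256 := by rw [hκL]; field_simp
      rw [this]; linarith
    have h2 : 10 * κL / b / 2 ^ n ≤ 1 / 2 ^ n := by gcongr
    linarith
  refine ⟨max (max N₁ m₀) n, N₁, J, 10 * κL / b / 2 ^ n, κL / 2 ^ n,
    fun n₃ => gsq v m₀ 2 S₀ (n₃ - m₀) (G ∩ boxes v m₀ 2 S₀ d₁ (3 * ϑ)), by positivity,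
    by positivity, hR, ?_, fun n₃ hn₃ => ?_, fun jt hjt => ?_⟩
  · have e1 : b / 2 * (10 * κL / b / 2 ^ n) = 5 * (κL / 2 ^ n) := by field_simp; ring
    rw [e1]
    have : 0 < κL / 2 ^ n := by positivity
    linarith
  · have hn₃2 : m₀ ≤ n₃ := ((le_max_right _ _).trans (le_max_left _ _)).trans hn₃
    obtain ⟨d, hd⟩ := Nat.exists_eq_add_of_le hn₃2
    subst hd
    simp only [Nat.add_sub_cancel_left]
    refine ⟨?_, ?_⟩
    · intro k hk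
      obtain ⟨k₀, hk₀, hkk, -⟩ := mem_gsq.1 hk
      exact ⟨k₀, hk₀, squ_sub_of_subs hkk⟩
    · -- the area
      exact hareaP d
  · obtain ⟨lo, hi, hPF, ht, hcl2, hin⟩ := exists_pfam HP hκL0 hb hb1 le_rfl (by linarith)
      (hN₁ _ hjt).1.le
    refine ⟨lo, hi, hPF, ht, fun z y hy => ?_, fun n₃ hn₃ k hk => ?_⟩
    · obtain ⟨s, hs, x, hx, hxy⟩ := hcl2 z y hy
      obtain ⟨k, hk, rfl⟩ := Finset.mem_image.1 hs
      refine ⟨k, hk, x, hx, hxy.trans ?_⟩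
      have : 2 / 2 ^ n = 2 * (1 / (2:ℝ) ^ n) := by ring
      rw [this]
      linarith
    · have hn₃1 : N₁ ≤ n₃ := ((le_max_left _ _).trans (le_max_left _ _)).trans hn₃
      have hn₃2 : m₀ ≤ n₃ := ((le_max_right _ _).trans (le_max_left _ _)).trans hn₃
      obtain ⟨d, hd⟩ := Nat.exists_eq_add_of_le hn₃2
      subst hd
      simp only [Nat.add_sub_cancel_left] at hk
      obtain ⟨z, hz, hx⟩ := near_plate hκL0 hκL1 HP hd₁ (hN₁ _ hn₃1).1.le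
        (fun k₀ hk₀ x hx y hy hxy => hosc k₀ hk₀ x hx y hy (hxy.trans (hN₁ _ hn₃1).2.le)) hk
      exact ⟨⟨z, hz⟩, fun x hxk y hy => hin ⟨z, hz⟩ x (hx x hxk).1 y ((hx x hxk).2 y hy)⟩

/-- **[PLATE-B]** -/
theorem specPlateB : H239.SpecPlateB := by
  intro C₀ ε b hC₀ hε hb hb1
  obtain ⟨κ, hκ, h⟩ := plateB C₀ ε b hC₀ hε hb hb1
  refine ⟨κ, hκ, fun Ω Λ f H v m₀ S₀ B hΩ hΛ hf hG hS hc hs ε₁ hε₁ => ?_⟩
  obtain ⟨n₀, j₀, J, R, r, G, hr, hR, hRε, hrR, h1, h2⟩ :=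
    h Ω Λ f H v m₀ S₀ B hΩ hΛ hf hG hS hc hs ε₁ hε₁
  refine ⟨n₀, fun n₃ hn₃ => ⟨G n₃, j₀, (h1 n₃ hn₃).1, (h1 n₃ hn₃).2, fun jt hjt => ?_⟩⟩
  obtain ⟨lo, hi, hPF, ht, hcl, hin⟩ := h2 jt hjt
  refine ⟨{z // z ∈ J}, inferInstance, lo, hi, fun _ => R, r, hr, hPF, fun _ => hRε, ht, hcl,
    fun k hk => ?_⟩
  obtain ⟨z, hz⟩ := hin n₃ hn₃ k hk
  refine ⟨z, fun x hx y hy => ?_⟩
  obtain ⟨h3, h4⟩ := hz x hx y hy
  rw [h4]
  have : b * (R - 0) - r = b / 2 * R + (b / 2 * R - r) := by ring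
  rw [this]
  linarith

end Vale.Agent.P073.H819
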