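import Vale.Agent.P073.H239.FSpec2
import Vale.Agent.P073.H582.E2d
import Vale.Agent.P073.H523.Count
import Vale.Agent.P073.H851.TtIn

/-!
# P073, block B10, rank two: **[TG-F]**, the target near the middle plane
-/

open Set Metric Topology Filter MeasureTheory Matrix WithLp
open scoped ENNReal NNReal

namespace Vale.Agent.P073.H819

open Vale.Agent.P073
open Vale.Agent.P073.St (V Mat)
open Vale.Agent.P073.AB (Idx squ MinSq cl FaceOf)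
open Vale.Agent.P073.H73 (ctr)
open Vale.Agent.P073.H194 (Rg up sc_up squ_sub_Rg)
open Vale.Agent.P073.H235 (rect)
open Vale.Agent.P073.H239 (TgB TgtP norm_toLp_le norm_le_toLp)
open Vale.Agent.P073.H304 (Nb mid)
open Vale.Agent.P073.H523 (pr pr_eq mem_rect_up card_rect_up up_up mem_eLow_of_sub card_eLow')
open Vale.Agent.P073.H582.R2 (am_eq deep_sub deep_anti)
open Vale.Agent.P073.H696 (R2 Mx deep V0)
open Vale.Agent.P073.H83 (eLow)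
open Vale.Agent.P073.H851 (M3)
open Vale.Agent.P073.H911 (idx hc_sub_dyc mem_hc_idx)
open _root_.P073 (ConHomeo)
open _root_.P073.Net (dyc dyo IsTile SizeFn)

variable {p Cu : ℝ} {Lc : M3 → ℝ} {δ : ℝ} {j : ℕ} {ε : ℝ} {Ω Λ : Set V} {f : V → V} {F : V → Mat}
  {v : V}

/-- a point off the boxes is mapped to `V0` -/
theorem mem_V0 (X : R2 p Cu Lc δ j ε Ω Λ f F v) {x : V} (hx : x ∈ Ω)
    (hoff : ∀ k ∈ X.K, x ∉ dyc v k.1 k.2) :
    X.h₁.toFun x ∈ V0 Λ (fun k : {k // k ∈ X.K} => Mx F X.x k.1)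
        (fun k => H696.bx f F X.x k.1) (fun k => deep v X.n (3 * X.c₀ k.1) k.1) := by
  refine ⟨X.h₁.mapsTo hx, fun k' x' hx' he => ?_⟩
  rw [am_eq] at he
  have hx'D := interior_subset hx'
  have hkb' := X.box k'.1 k'.2
  have hc := hkb'.2.2.1
  have hsub' := deep_sub (v := v) (n := X.n) (k := k'.1) (c := 3 * X.c₀ k'.1)
    (by linarith) (by linarith [hkb'.2.1])
  have h1 := X.st.kept k'.1 k'.2 x'
    (deep_anti (v := v) (c := 2 * X.c₀ k'.1) (c' := 3 * X.c₀ k'.1) (by linarith) _ _ hx'D)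
  rw [← h1] at he
  have h2 : x' = x := X.h₁.injOn (hkb'.1 (hsub' hx'D)) hx he
  rw [h2] at hx'D
  exact hoff k'.1 k'.2 (hsub' hx'D)

theorem mem_dyc_idx (v : V) (m : ℕ) (x : V) : x ∈ dyc v m (idx v m x) :=
  hc_sub_dyc v m _ (mem_hc_idx v m x)

/-- all tiles near the image of a point off the boxes are processed -/
theorem act_of (X : R2 p Cu Lc δ j ε Ω Λ f F v) {x : V} (hx : x ∈ Ω)
    (hoff : ∀ k ∈ X.K, x ∉ dyc v k.1 k.2) {mt : ℕ}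
    (ht : ∀ z : Fin 3 → ℤ, (∃ u ∈ dyc 0 mt z, ‖X.hh.toFun x - u‖ ≤ 4 / 2 ^ mt) →
      IsTile X.ρ 0 mt z) {z : Fin 3 → ℤ}
    (hz : ∃ u ∈ dyc 0 mt z, ‖X.hh.toFun x - u‖ ≤ 1 / 64 / 2 ^ mt) : (mt, z) ∈ X.J₀ := by
  have hV := mem_V0 X hx hoff
  have h2 : (0:ℝ) < 2 ^ mt := by positivity
  obtain ⟨u, hu, hd⟩ := hz
  have h0 : IsTile X.ρ 0 mt (idx 0 mt (X.hh.toFun x)) :=
    ht _ ⟨_, mem_dyc_idx _ _ _, by rw [sub_self, norm_zero]; positivity⟩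
  have h1 : IsTile X.ρ 0 mt z := ht z ⟨u, hu, hd.trans (by gcongr; norm_num)⟩
  refine X.tg.V0n _ hV (mt, idx 0 mt (X.hh.toFun x)) (mt, z) h0 (mem_dyc_idx _ _ _) h1
    ⟨u, hu, ?_⟩
  rw [norm_sub_rev]
  exact hd

/-- the oscillation of `hh` -/
theorem osc_hh (X : R2 p Cu Lc δ j ε Ω Λ f F v) {x y : V} (hx : x ∈ Ω) (hy : y ∈ Ω)
    (hoff : ∀ k ∈ X.K, x ∉ dyc v k.1 k.2) {mt : ℕ}
    (ht : ∀ z : Fin 3 → ℤ, (∃ u ∈ dyc 0 mt z, ‖X.hh.toFun x - u‖ ≤ 4 / 2 ^ mt) →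
      IsTile X.ρ 0 mt z) (hxy : ‖X.h₁.toFun x - X.h₁.toFun y‖ ≤ X.δs x) :
    ‖X.hh.toFun x - X.hh.toFun y‖ ≤ δ / 2 / 2 ^ mt := by
  have hV := mem_V0 X hx hoff
  have h2 : (0:ℝ) < 2 ^ mt := by positivity
  set z₀ := idx 0 mt (X.hh.toFun x) with hz₀
  have hmem : X.hh.toFun x ∈ dyc 0 mt z₀ := mem_dyc_idx _ _ _
  have hJ : (mt, z₀) ∈ X.J₀ := act_of X hx hoff ht
    ⟨_, hmem, by rw [sub_self, norm_zero]; positivity⟩
  refine X.mod x hx _ (X.h₁.mapsTo hx) _ (X.h₁.mapsTo hy) (X.st.close x hx).2 hxy (mt, z₀) hJ ?_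
  have hnm : X.hh.toFun x ∉ mid 0 (1 / 2 ^ j) (mt, z₀) := by
    intro hm
    obtain ⟨x', hx', he⟩ := X.tg.mid _ (X.tg.sub hJ) _ (X.h₁.mapsTo hx) hm
    exact hV.2 _ x' (X.tg.cell _ (X.tg.sub hJ) hx') he.symm
  unfold mid at hnm
  rw [mem_closedBall, dist_eq_norm, not_le] at hnm
  rw [H304.dyc_eq_closedBall, mem_closedBall, dist_eq_norm] at hmem
  have hj : (1:ℝ) / 2 ^ j ≤ 1 / 2 ^ 7 := by
    apply one_div_le_one_div_of_le (by positivity)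
    exact pow_le_pow_right₀ (by norm_num) X.hj
  obtain ⟨w, hw, hwd⟩ := H851.exists_frontier (σ := 1 / 2 / 2 ^ mt) (η := 1 / 2 ^ j)
    (by positivity) hmem (by
      refine le_trans (le_of_eq ?_) hnm.le
      ring)
  refine ⟨(mt, z₀), rfl, w, ?_, hwd.trans ?_⟩
  · show w ∈ frontier (dyc 0 mt z₀)
    rw [H304.dyc_eq_closedBall]
    exact hw
  · show (1:ℝ) / 2 ^ j * (1 / 2 / 2 ^ mt) ≤ 2 * (1 / 64) / 2 ^ mt
    rw [← mul_div_assoc]
    refine div_le_div_of_nonneg_right ?_ (by positivity)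
    norm_num at hj ⊢
    linarith

theorem card_bad {m₀ n₃ nS : ℕ} {α β : Fin 3 → ℤ} {G₃ : Finset (Fin 3 → ℤ)} {v : V} {ε : ℝ}
    (hm : m₀ ≤ n₃) (hn : n₃ ≤ nS)
    (hG : ∀ k ∈ G₃, ∃ k₀ ∈ rect α β, squ v ((n₃, k), 2) ⊆ squ v ((m₀, k₀), 2))
    (hc : ((rect α β).card : ℝ) / 4 ^ m₀ - (G₃.card : ℝ) / 4 ^ n₃ ≤ ε) :
    ((rect (up m₀ nS α) (up m₀ nS β) \
      (rect (up m₀ nS α) (up m₀ nS β)).filter fun k => pr (nS - n₃) k ∈ G₃).card : ℝ) / 4 ^ nS ≤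
        ε := by
  classical
  have hup : ∀ a, up n₃ nS (up m₀ n₃ a) = up m₀ nS a := up_up hm hn
  have hsub : G₃ ⊆ rect (up m₀ n₃ α) (up m₀ n₃ β) := by
    intro k hk
    obtain ⟨k₀, hk₀, hs⟩ := hG k hk
    exact mem_rect_up.2 ⟨k₀, hk₀, mem_eLow_of_sub hm hs⟩
  have h1 : (rect (up m₀ nS α) (up m₀ nS β) \
      (rect (up m₀ nS α) (up m₀ nS β)).filter fun k => pr (nS - n₃) k ∈ G₃) ⊆
      (rect (up m₀ n₃ α) (up m₀ n₃ β) \ G₃).biUnion fun k₀ => eLow ((n₃, k₀), 2) nS := by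
    intro k hk
    rw [Finset.mem_sdiff, Finset.mem_filter] at hk
    obtain ⟨h1, h2⟩ := hk
    have h1' := h1
    rw [← hup, ← hup, mem_rect_up] at h1'
    obtain ⟨k₀, hk₀, hk⟩ := h1'
    rw [Finset.mem_biUnion]
    refine ⟨k₀, Finset.mem_sdiff.2 ⟨hk₀, fun h3 => h2 ⟨h1, ?_⟩⟩, hk⟩
    rwa [pr_eq hk]
  have h2 := (Finset.card_le_card h1).trans Finset.card_biUnion_le
  rw [Finset.sum_congr rfl fun k _ => card_eLow' n₃ nS k, Finset.sum_const, smul_eq_mul,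
    Finset.card_sdiff_of_subset hsub, card_rect_up] at h2
  have hle : G₃.card ≤ (rect α β).card * 4 ^ (n₃ - m₀) := by
    rw [← card_rect_up]
    exact Finset.card_le_card hsub
  have h3 : ((rect (up m₀ nS α) (up m₀ nS β) \
      (rect (up m₀ nS α) (up m₀ nS β)).filter fun k => pr (nS - n₃) k ∈ G₃).card : ℝ) ≤
      ((rect α β).card * 4 ^ (n₃ - m₀) - G₃.card) * 4 ^ (nS - n₃) := by
    have : (((rect α β).card * 4 ^ (n₃ - m₀) - G₃.card : ℕ) : ℝ) =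
        (rect α β).card * 4 ^ (n₃ - m₀) - G₃.card := by
      rw [Nat.cast_sub hle]; push_cast; ring
    rw [← this]
    exact_mod_cast h2
  refine le_trans ?_ hc
  have e1 : (4:ℝ) ^ nS = 4 ^ (nS - n₃) * 4 ^ n₃ := by rw [← pow_add, Nat.sub_add_cancel hn]
  have e2 : (4:ℝ) ^ n₃ = 4 ^ (n₃ - m₀) * 4 ^ m₀ := by rw [← pow_add, Nat.sub_add_cancel hm]
  rw [div_le_iff₀ (by positivity)]
  refine h3.trans (le_of_eq ?_)
  rw [e1, e2]
  field_simp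

/-- **[TG-F]** -/
theorem specTgF : H239.SpecTgF := by
  classical
  intro p Cu Lc δ j ε Ω Λ f F v X m₀ n₃ nS mt α β G₃ ι lo hi R b r c Kc gg hr hc hcδ hαβ hRg hm hn
    hG₃ hcount hplate hKc hdisj hclose hminS hδs HT
  have hsub : ∀ k ∈ rect (up m₀ nS α) (up m₀ nS β), ∀ x ∈ squ v ((nS, k), 2), x ∈ Rg v m₀ α β :=
    fun k hk x hx => squ_sub_Rg (sc_up (hm.trans hn) α β) hk hx
  have hK : ∀ x ∈ Rg v m₀ α β, X.h₁.toFun x ∈ Kc := fun x hx => hKc x hx _ (hclose x hx)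
  have hoff : ∀ x ∈ Rg v m₀ α β, ∀ k ∈ X.K, x ∉ dyc v k.1 k.2 := fun x hx k hk h =>
    Set.disjoint_left.1 (hdisj k hk) h hx
  have htile : ∀ x ∈ Rg v m₀ α β, ∀ z : Fin 3 → ℤ,
      (∃ u ∈ dyc 0 mt z, ‖X.hh.toFun x - u‖ ≤ 4 / 2 ^ mt) → IsTile X.ρ 0 mt z :=
    fun x hx z hz => HT.tile _ (hK x hx) z hz
  have hsm : ∀ k ∈ rect (up m₀ nS α) (up m₀ nS β), ∀ x ∈ squ v ((nS, k), 2),
      ∀ y ∈ squ v ((nS, k), 2), ‖X.h₁.toFun x - X.h₁.toFun y‖ ≤ X.δs x := by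
    intro k hk x hx y hy
    obtain ⟨q, hq, hF⟩ := (hminS k hk).1
    have hqs := H194.face_sub (v := v) hF
    have hqS : q ∉ X.S := by
      intro h
      obtain ⟨k', hk', hq'⟩ := X.st.inBox q h
      exact hoff x (hsub k hk x hx) k' hk' (hq' (hqs hx))
    exact X.st.small q ⟨hq, hqS⟩ x (hqs hx) y (hqs hy)
  have h2 : (0:ℝ) < 2 ^ mt := by positivity
  have hεp := X.hε
  have hδ0 := X.hδ
  refine ⟨(rect (up m₀ nS α) (up m₀ nS β)).filter fun k => pr (nS - n₃) k ∈ G₃, ?_⟩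
  have hGk : ∀ k ∈ (rect (up m₀ nS α) (up m₀ nS β)).filter (fun k => pr (nS - n₃) k ∈ G₃),
      k ∈ rect (up m₀ nS α) (up m₀ nS β) ∧
      ∃ k₃ ∈ G₃, squ v ((nS, k), 2) ⊆ squ v ((n₃, k₃), 2) := by
    intro k hk
    rw [Finset.mem_filter] at hk
    obtain ⟨h3, h4⟩ := hk
    refine ⟨h3, _, h4, ?_⟩
    have hup : ∀ a, up n₃ nS (up m₀ n₃ a) = up m₀ nS a := up_up hm hn
    rw [← hup, ← hup, mem_rect_up] at h3
    obtain ⟨k₀, hk₀, hk⟩ := h3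
    rw [pr_eq hk]
    exact H83.squ_sub (s := ((n₃, k₀), 2)) hn hk
  refine
    { mtε := HT.mtε
      bdT := HT.bdT
      tile := fun k hk x hx => htile x (hsub k hk x hx)
      act := fun k hk x hx z hz => act_of X (hRg (hsub k hk x hx)) (hoff x (hsub k hk x hx))
        (htile x (hsub k hk x hx)) hz
      osc := fun k hk x hx y hy => ⟨?_, ?_⟩
      Gsub := Finset.filter_subset _ _
      plate := fun k hk => ?_
      area := ENNReal.ofReal_le_ofReal (card_bad hm hn hG₃ hcount)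
      gglip := HT.lip
      ggc := HT.close
      far := fun k hk x hx => HT.far _ (hK x (hsub k hk x hx))
      tan := fun k hk x hx w hw => ?_ }
  · have hxR := hsub k hk x hx
    have hyR := hsub k hk y hy
    refine (osc_hh X (hRg hxR) (hRg hyR) (hoff x hxR) (htile x hxR) (hsm k hk x hx y hy)).trans ?_
    gcongr
    linarith
  · have hxR := hsub k hk x hx
    have h3 := (hsm k hk x hx y hy).trans (hδs x (hRg hxR))
    refine (norm_le_toLp _).trans ((HT.lip _ _).trans ?_)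
    have h4 := norm_toLp_le (X.h₁.toFun x - X.h₁.toFun y)
    calc (1 + ε) * ‖toLp 2 (X.h₁.toFun x - X.h₁.toFun y)‖ ≤ 2 * (2 * (c / 2 ^ mt)) := by
          have h5 : ‖toLp 2 (X.h₁.toFun x - X.h₁.toFun y)‖ ≤ 2 * (c / 2 ^ mt) :=
            h4.trans (by gcongr)
          gcongr
          linarith [hεp.2]
      _ = 4 * c / 2 ^ mt := by ring
      _ ≤ δ / 2 ^ mt := by gcongr; linarith
  · obtain ⟨hk1, k₃, hk₃, hs⟩ := hGk k hk
    obtain ⟨z, hz⟩ := hplate k₃ hk₃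
    obtain ⟨t, ht⟩ := HT.grid z
    refine ⟨t, fun x hx => ?_⟩
    have hxR := hsub k hk1 x hx
    have h3 := (HT.plate z _ (hK x hxR) (hz x (hs hx) _ (hclose x hxR))).1
    rw [← ht]
    refine h3.trans ?_
    gcongr
    linarith
  · obtain ⟨hk1, k₃, hk₃, hs⟩ := hGk k hk
    obtain ⟨z, hz⟩ := hplate k₃ hk₃
    have hxR := hsub k hk1 x hx
    exact (HT.plate z _ (hK x hxR) (hz x (hs hx) _ (hclose x hxR))).2 w hw

end Vale.Agent.P073.H819
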