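import Vale.Agent.P073.H239.GC

/-!
# P073, block B10: alignment for generalised collapses

`GC.exists_adapted` and `GC.exists_align` generalise `H726.Coll.exists_adapted` and
`H726.Coll.exists_alignG` from the output of the collapse theorem to generalised collapses
(`N` planes, arbitrary invertible linear parts).
-/

open Set Metric Topology Filter WithLp MeasureTheory Matrix
open scoped ENNReal InnerProductSpace

namespace Vale.Agent.P073.H819

open _root_.P073
open Vale.Agent.P073.St (V)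
open Vale.Agent.P073.H471 (Cubes)
open Vale.Agent.P073.H726 (LBOn compl_nonempty exists_lower continuous_of_lip exists_below
  lb_of_continuousOn eventually_eq_of_ball)
open Vale.Agent.P073.H851 (M3 bddM AlignM)
open Vale.Agent.P073.H239 (GC AdaptedN Approx)

variable {N : ℕ} {C₀ m₀ : ℝ} {Λ V₀ X : Set V} {T : V → V}

/-- the preimage of a compact subset of `Λ` is a compact subset of `Λ` -/
theorem gc_compact_preimage (C : GC N C₀ m₀ Λ V₀ X T) {K : Set V} (hK : IsCompact K)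
    (hKΛ : K ⊆ Λ) : IsCompact (T ⁻¹' K) ∧ T ⁻¹' K ⊆ Λ := by
  have h1 : T ⁻¹' K ⊆ Λ := by
    intro y hy
    by_contra hc
    have := C.off y hc
    rw [mem_preimage, this] at hy
    exact hc (hKΛ hy)
  exact ⟨Metric.isCompact_of_isClosed_isBounded (hK.isClosed.preimage C.cont)
    (C.bdd.subset h1), h1⟩

theorem gc_measurable_X (C : GC N C₀ m₀ Λ V₀ X T) : MeasurableSet X := by
  have : X = (X ∪ Λᶜ) ∩ Λ := by
    ext x
    constructor
    · intro hx; exact ⟨Or.inl hx, C.Xsub hx⟩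
    · rintro ⟨hx | hx, hx'⟩
      · exact hx
      · exact absurd hx' hx
  rw [this]
  exact C.Xcl.measurableSet.inter C.opn.measurableSet

/-- an open neighbourhood of `X` with small preimage (without the preimage of `X`) -/
theorem gc_exists_open (C : GC N C₀ m₀ Λ V₀ X T) {ν : Measure V}
    (hν : ∀ K ⊆ Λ, IsCompact K → ν K < ∞) {ε : ℝ≥0∞} (hε : ε ≠ 0) :
    ∃ U : Set V, IsOpen U ∧ X ⊆ U ∧ U ⊆ Λ ∧ ν {y | y ∈ Λ ∧ T y ∉ X ∧ T y ∈ U} ≤ ε := by
  have hTm : Measurable T := C.cont.measurable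
  have hXm := gc_measurable_X C
  set A : Set V := {y | y ∈ Λ ∧ T y ∉ X} with hA
  have hAm : MeasurableSet A := C.opn.measurableSet.inter (hTm hXm).compl
  set μ : Measure V := (ν.restrict A).map T with hμ
  have hμ1 : ∀ S, MeasurableSet S → μ S = ν (T ⁻¹' S ∩ A) := fun S hS => by
    rw [hμ, Measure.map_apply hTm hS, Measure.restrict_apply (hTm hS)]
  set μ' : Measure Λ := μ.comap Subtype.val with hμ'
  have hemb : MeasurableEmbedding (Subtype.val : Λ → V) :=
    MeasurableEmbedding.subtype_coe C.opn.measurableSet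
  have hμ2 : ∀ S : Set Λ, μ' S = μ (Subtype.val '' S) := fun S => hemb.comap_apply μ S
  have : IsLocallyFiniteMeasure μ' := by
    refine ⟨fun x => ?_⟩
    obtain ⟨r, hr, hb⟩ := Metric.nhds_basis_closedBall.mem_iff.1 (C.opn.mem_nhds x.2)
    refine ⟨Subtype.val ⁻¹' closedBall x.1 r,
      (continuous_subtype_val.continuousAt (x := x)).preimage_mem_nhds
        (closedBall_mem_nhds _ hr), ?_⟩
    rw [hμ2]
    have hK : IsCompact (closedBall x.1 r) := isCompact_closedBall _ _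
    obtain ⟨h1, h2⟩ := gc_compact_preimage C hK hb
    calc μ (Subtype.val '' (Subtype.val ⁻¹' closedBall x.1 r))
        ≤ μ (closedBall x.1 r) := measure_mono (image_preimage_subset _ _)
      _ = ν (T ⁻¹' closedBall x.1 r ∩ A) := hμ1 _ hK.measurableSet
      _ ≤ ν (T ⁻¹' closedBall x.1 r) := measure_mono inter_subset_left
      _ < ∞ := hν _ h2 h1
  obtain ⟨U, hU1, hU2, hU3⟩ := Set.exists_isOpen_le_add (Subtype.val ⁻¹' X : Set Λ) μ' hε
  have h0 : μ' (Subtype.val ⁻¹' X : Set Λ) = 0 := by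
    rw [hμ2]
    refine measure_mono_null (image_preimage_subset _ _) ?_
    rw [hμ1 _ hXm]
    have : T ⁻¹' X ∩ A = ∅ := by
      ext y
      simp only [hA, mem_inter_iff, mem_preimage, mem_ofPred_eq, mem_empty_iff_false, iff_false]
      tauto
    rw [this, measure_empty]
  rw [h0, zero_add] at hU3
  have hUo : IsOpen (Subtype.val '' U) := C.opn.isOpenMap_subtype_val U hU2
  refine ⟨Subtype.val '' U, hUo, fun x hx => ⟨⟨x, C.Xsub hx⟩, hU1 hx, rfl⟩, ?_, ?_⟩
  · rintro _ ⟨x, -, rfl⟩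
    exact x.2
  · rw [hμ2, hμ1 _ hUo.measurableSet] at hU3
    refine le_trans (measure_mono ?_) hU3
    rintro y ⟨h1, h2, h3⟩
    exact ⟨h3, h1, h2⟩

/-- the planes property -/
def PlN (N : ℕ) (X : Set V) (x : V) (ρ : ℝ) : Prop :=
  ∃ q : Finset ((V →L[ℝ] ℝ) × ℝ), q.card ≤ N ∧ (∀ p ∈ q, p.1 ≠ 0) ∧
    ∀ x' ∈ closedBall x ρ, x' ∈ X → ∃ p ∈ q, p.1 x' = p.2

theorem PlN.mono {x x' : V} {ρ ρ' : ℝ} (H : PlN N X x ρ)
    (hs : closedBall x' ρ' ⊆ closedBall x ρ) : PlN N X x' ρ' := by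
  obtain ⟨q, h1, h2, h3⟩ := H
  exact ⟨q, h1, h2, fun y hy => h3 y (hs hy)⟩

theorem gc_exists_pl (C : GC N C₀ m₀ Λ V₀ X T) :
    ∃ F : V → ℝ, LBOn Λ F ∧ ∀ x ∈ Λ, PlN N X x (F x) := by
  set S : V → Set ℝ := fun x => {ρ | 0 ≤ ρ ∧ ρ ≤ 1 ∧ PlN N X x ρ} with hS
  have hbdd : ∀ x, BddAbove (S x) := fun x => ⟨1, fun ρ hρ => hρ.2.1⟩
  have hloc : ∀ x ∈ Λ, ∃ c > 0, ∀ᶠ w in 𝓝 x, c ∈ S w := by
    intro x hx
    obtain ⟨q, h1, h2, h3⟩ := C.planes x hx
    obtain ⟨ρ, hρ, hb⟩ := Metric.nhds_basis_closedBall.mem_iff.1 h3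
    have hc : 0 < Min.min 1 (ρ / 2) := by positivity
    refine ⟨Min.min 1 (ρ / 2), hc, ?_⟩
    filter_upwards [ball_mem_nhds x (show 0 < ρ / 2 by positivity)] with w hw
    refine ⟨hc.le, min_le_left _ _, q, h1, h2, fun x' hx' => hb ?_⟩
    rw [mem_ball] at hw
    rw [mem_closedBall] at hx' ⊢
    have := dist_triangle x' w x
    have := min_le_right 1 (ρ / 2)
    linarith
  refine ⟨fun x => sSup (S x) / 2, fun x hx => ?_, fun x hx => ?_⟩
  · obtain ⟨c, hc, h1⟩ := hloc x hx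
    refine ⟨c / 2, by positivity, ?_⟩
    filter_upwards [h1] with w hw _
    have := le_csSup (hbdd w) hw
    show c / 2 ≤ sSup (S w) / 2
    linarith
  · obtain ⟨c, hc, h1⟩ := hloc x hx
    have h2 := le_csSup (hbdd x) h1.self_of_nhds
    obtain ⟨ρ, hρ, hlt⟩ := exists_lt_of_lt_csSup ⟨c, h1.self_of_nhds⟩
      (show sSup (S x) / 2 < sSup (S x) by linarith)
    exact hρ.2.2.mono (closedBall_subset_closedBall hlt.le)

/-- **(T2)**: adapted size functions exist -/
theorem gc_exists_adapted (C : GC N C₀ m₀ Λ V₀ X T) {δ : V → ℝ} (hδ : LBOn Λ δ) {ν : Measure V}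
    (hν : ∀ K ⊆ Λ, IsCompact K → ν K < ∞) {ε : ℝ≥0∞} (hε : ε ≠ 0) :
    ∃ s, AdaptedN N Λ X T δ ν ε s := by
  have hne := compl_nonempty C.bdd
  obtain ⟨U, hU1, hU2, hU3, hU4⟩ := gc_exists_open C hν hε
  obtain ⟨F, hF1, hF2⟩ := gc_exists_pl C
  -- the first function
  have hnU : (Uᶜ).Nonempty := hne.mono (compl_subset_compl.2 hU3)
  have hnX : (X ∪ Λᶜ).Nonempty := hne.mono subset_union_right
  set s₁ : V → ℝ := fun x => max (infDist x Uᶜ) (infDist x (X ∪ Λᶜ)) / 2 with hs₁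
  have hs₁c : Continuous s₁ :=
    ((continuous_infDist_pt _).max (continuous_infDist_pt _)).div_const 2
  have hs₁0 : ∀ x ∈ Λ, 0 < s₁ x := by
    intro x hx
    have : 0 < max (infDist x Uᶜ) (infDist x (X ∪ Λᶜ)) := by
      by_cases hxU : x ∈ U
      · exact lt_max_of_lt_left ((hU1.isClosed_compl.notMem_iff_infDist_pos hnU).1
          (fun h => h hxU))
      · refine lt_max_of_lt_right ((C.Xcl.notMem_iff_infDist_pos hnX).1 ?_)
        rw [mem_union, not_or]
        exact ⟨fun h => hxU (hU2 h), fun h => h hx⟩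
    simp only [hs₁]; positivity
  have hs₁U : ∀ x ∈ Λ, (∃ x' ∈ X, ‖x - x'‖ ≤ s₁ x) → x ∈ U := by
    rintro x hx ⟨x', hx', hd⟩
    by_contra hxU
    have h1 : infDist x Uᶜ = 0 := infDist_zero_of_mem hxU
    have h2 : infDist x (X ∪ Λᶜ) ≤ ‖x - x'‖ := by
      rw [← dist_eq_norm]; exact infDist_le_dist_of_mem (Or.inl hx')
    have h3 := hs₁0 x hx
    have h4 : s₁ x ≤ s₁ x / 2 := by
      calc s₁ x = max (infDist x Uᶜ) (infDist x (X ∪ Λᶜ)) / 2 := rfl
        _ ≤ s₁ x / 2 := by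
          rw [h1, max_eq_right infDist_nonneg]
          linarith
    linarith
  -- the closeness function
  set S : V → Set ℝ := fun x => insert 1 {a | ∃ y ∈ Λ, T y = x ∧ a = δ y} with hS
  have hbdd : ∀ x, BddBelow (S x) := fun x => ⟨0, by
    rintro a (rfl | ⟨y, hy, -, rfl⟩)
    · exact zero_le_one
    · exact (hδ.pos hy).le⟩
  have hδ₂ : LBOn Λ fun x => sInf (S x) := by
    intro x hx
    obtain ⟨r, hr, hb⟩ := Metric.nhds_basis_closedBall.mem_iff.1 (C.opn.mem_nhds hx)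
    obtain ⟨h1, h2⟩ := gc_compact_preimage C (isCompact_closedBall x r) hb
    obtain ⟨c, hc, h3⟩ := hδ.exists_le h1 h2
    refine ⟨Min.min 1 c, lt_min one_pos hc, ?_⟩
    filter_upwards [closedBall_mem_nhds x hr] with w hw _
    refine le_csInf ⟨1, mem_insert _ _⟩ ?_
    rintro a (rfl | ⟨y, hy, hyw, rfl⟩)
    · exact min_le_left _ _
    · exact (min_le_right _ _).trans (h3 y (by rw [mem_preimage, hyw]; exact hw))
  have hall : LBOn Λ fun x => Min.min (s₁ x) (Min.min (F x) (sInf (S x))) :=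
    (LBOn.of_continuous C.opn hs₁c hs₁0).min (hF1.min hδ₂)
  obtain ⟨s, hr1, hr2, hr3, hr4, hr5⟩ := exists_lower C.opn hne hall (fun y hy => hall.pos hy)
  refine ⟨s, ⟨hr1, hr2, hr5, fun x hx => ?_, fun y hy => ?_, ?_⟩⟩
  · have h1 : s x ≤ F x := (hr3 x hx).trans ((min_le_right _ _).trans (min_le_left _ _))
    exact (hF2 x hx).mono (closedBall_subset_closedBall h1)
  · have h1 : s (T y) ≤ sInf (S (T y)) :=
      (hr3 _ (C.maps hy)).trans ((min_le_right _ _).trans (min_le_right _ _))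
    exact h1.trans (csInf_le (hbdd _) (mem_insert_of_mem _ ⟨y, hy, rfl, rfl⟩))
  · refine le_trans (measure_mono ?_) hU4
    rintro y ⟨h1, h2, x', hx', hd⟩
    refine ⟨h1, h2, hs₁U _ (C.maps h1) ⟨x', hx', hd.trans ?_⟩⟩
    exact (hr3 _ (C.maps h1)).trans (min_le_left _ _)

/-- the homeomorphism `g` near the generalised collapse `T`, aligned with the cubes
`closedBall (z i) (σ i)`; core radius `σ i / (14 N)` -/
structure AlignN (N : ℕ) {ι : Type*} (C₀ m₀ : ℝ) (Λ V₀ X : Set V) (T : V → V) (s : V → ℝ)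
    (z : ι → V) (σ : ι → ℝ) (k : ι → ℝ) (ε : ℝ) (c : ι → V) (M : ι → M3) (b : ι → V)
    (g : V → V) : Prop extends AlignM Λ V₀ X (1 / (14 * (N : ℝ))) z σ k c M b g where
  cont : Continuous g
  off : ∀ y ∉ Λ, g y = y
  near : ∀ y ∈ Λ, ‖g y - T y‖ ≤ s (T y) / 16
  near' : ∀ y ∈ Λ, ∀ i, g y ∈ closedBall (z i) (σ i) → ‖g y - T y‖ ≤ σ i / (56 * (N : ℝ))
  /-- `g = T` off a neighbourhood of `X` -/
  far : ∀ y ∈ Λ, (∀ x ∈ X, s (T y) / 16 < ‖T y - x‖) → g y = T y
  /-- `g` is `(C₀ + ε)`-Lipschitz in the Euclidean norm -/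
  lip : ∀ y y', ‖toLp 2 (g y - g y')‖ ≤ (C₀ + ε) * ‖toLp 2 (y - y')‖
  Mbd : ∀ i, M i ∈ bddM m₀
  /-- the affine maps on the cores are those of `T` -/
  affT : ∀ i, ∀ y, T y ∈ closedBall (c i) (1 / (14 * (N : ℝ)) * σ i) →
    ∀ᶠ y' in 𝓝 y, T y' = M i *ᵥ y' - b i
  /-- a smallness parameter of our choice -/
  small : ∀ y ∈ Λ, ‖g y - T y‖ ≤ ε

/-- **(T3)**: the homeomorphism `g` near a generalised collapse, aligned with the cubes -/
theorem gc_exists_align (C : GC N C₀ m₀ Λ V₀ X T) (hN : 1 ≤ N) (hm2 : m₀ ≤ 2) {δ : V → ℝ}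
    {ν : Measure V} {ε₀ : ℝ≥0∞} {s : V → ℝ} (A : AdaptedN N Λ X T δ ν ε₀ s) {ι : Type*}
    {z : ι → V} {σ : ι → ℝ} (Q : Cubes Λ z σ) (hσ : ∀ i, σ i ≤ s (z i) / 16) {k : ι → ℝ}
    (hk : ∀ i, 0 < k i) {ε : ℝ} (hε : 0 < ε) :
    ∃ (c : ι → V) (M : ι → M3) (b : ι → V) (g : ConHomeo Λ Λ),
      AlignN N C₀ m₀ Λ V₀ X T s z σ k ε c M b g.toFun := by
  have hNr : (1 : ℝ) ≤ N := by exact_mod_cast hN
  have hN0 : (0 : ℝ) < N := by linarith
  set κ : ℝ := 1 / (14 * (N : ℝ)) with hκ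
  have hκ0 : 0 < κ := by positivity
  have hκ1 : κ ≤ 1 / 14 := by
    rw [hκ]
    apply one_div_le_one_div_of_le (by norm_num)
    linarith
  have hκ2 : ∀ t : ℝ, t / (7 * (N : ℝ)) = 2 * κ * t := fun t => by
    rw [hκ]; field_simp; ring
  have hκ3 : ∀ t : ℝ, t / (56 * (N : ℝ)) = κ / 4 * t := fun t => by
    rw [hκ]; field_simp; ring
  have hzΛ : ∀ i, z i ∈ Λ := fun i => Q.sub i (mem_closedBall_self (Q.pos i).le)
  -- the centres
  have hc : ∀ i, ∃ c : V, ‖c - z i‖ ≤ σ i / 2 ∧ ∀ x ∈ X, 2 * κ * σ i < ‖x - c‖ := by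
    intro i
    obtain ⟨q, hq1, hq2, hq3⟩ := A.planes (z i) (hzΛ i)
    obtain ⟨c, hc1, hc2⟩ := Vale.Agent.P073.H716.exists_hole_clm q hq1 hq2 (z i) (Q.pos i)
    refine ⟨c, hc1, fun x hx => ?_⟩
    by_cases hxs : x ∈ closedBall (z i) (s (z i))
    · obtain ⟨p, hp, hpx⟩ := hq3 x hxs hx
      have := hc2 p hp x hpx
      rwa [hκ2] at this
    · rw [mem_closedBall, dist_eq_norm, not_le] at hxs
      have h1 := norm_sub_le_norm_sub_add_norm_sub x c (z i)
      have h2 := hσ i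
      have h3 := Q.pos i
      have h4 : 2 * κ * σ i ≤ 1 / 7 * σ i := by
        apply mul_le_mul_of_nonneg_right _ h3.le; linarith
      linarith
  choose c hc1 hc2 using hc
  -- the size of the perturbation
  set m : ι → ℝ := fun i => min (κ / 8) (k i / 8) * σ i with hm
  have hm0 : ∀ i, 0 < m i := fun i => by
    have := hk i
    have := Q.pos i
    positivity
  have hm1 : ∀ i, m i ≤ κ / 8 * σ i := fun i => by
    have h1 : min (κ / 8) (k i / 8) ≤ κ / 8 := min_le_left _ _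
    have h2 := Q.pos i
    simp only [hm]; gcongr
  have hm2' : ∀ i, m i ≤ k i * σ i / 8 := fun i => by
    have h1 : min (κ / 8) (k i / 8) ≤ k i / 8 := min_le_right _ _
    have h2 := Q.pos i
    calc m i ≤ k i / 8 * σ i := by simp only [hm]; gcongr
      _ = _ := by ring
  have hκσ : ∀ i, 0 < κ * σ i := fun i => mul_pos hκ0 (Q.pos i)
  have hκσ1 : ∀ i, κ * σ i ≤ 1 / 14 * σ i := fun i =>
    mul_le_mul_of_nonneg_right hκ1 (Q.pos i).le
  obtain ⟨F, hF0, hFl, hFm⟩ := exists_below Q hm0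
  have hsc : Continuous s := continuous_of_lip A.lip
  obtain ⟨r, hr1, hr2, hr3, hr4, hr5⟩ := exists_lower C.opn (compl_nonempty C.bdd)
    (s := fun x => min (min (s x / 16) ε) (F x)) (fun x hx => by
      obtain ⟨a, ha, h1⟩ := hFl x hx
      obtain ⟨b, hb, h2⟩ := lb_of_continuousOn C.opn (s := fun x => min (s x / 16) ε)
        ((hsc.div_const 16).min continuous_const).continuousOn
        (fun y hy => lt_min (by have := A.pos y hy; positivity) hε) x hx
      refine ⟨min b a, lt_min hb ha, ?_⟩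
      filter_upwards [h1, h2] with w k1 k2 hw
      exact min_le_min (k2 hw) (k1 hw))
    (fun y hy => lt_min (lt_min (by have := A.pos y hy; positivity) hε) (hF0 y hy))
  have hrs : ∀ x ∈ Λ, r x ≤ s x / 16 := fun x hx =>
    (hr3 x hx).trans ((min_le_left _ _).trans (min_le_left _ _))
  have hrε : ∀ x ∈ Λ, r x ≤ ε := fun x hx =>
    (hr3 x hx).trans ((min_le_left _ _).trans (min_le_right _ _))
  have hrF : ∀ x ∈ Λ, r x ≤ F x := fun x hx => (hr3 x hx).trans (min_le_right _ _)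
  have hrc : Continuous r := continuous_of_lip hr1
  set δ₁ : V → ℝ := fun x => r x / 2 with hδ₁
  have hδc : Continuous δ₁ := hrc.div_const 2
  have hδ0 : ∀ y ∈ Λ, 0 < δ₁ y := fun y hy => by
    have := hr2 y hy; simp only [hδ₁]; positivity
  obtain ⟨g, hg1, hg2, hg3, hg4, hg5⟩ := C.approx δ₁ (LBOn.of_continuous C.opn hδc hδ0) ε hε
  have hTc := C.cont
  have hgΛ : ∀ y, g.toFun y ∈ Λ → y ∈ Λ := fun y hy => by
    by_contra hc
    rw [hg2 y hc] at hy
    exact hc hy
  -- closeness in the cubes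
  have hcl : ∀ y ∈ Λ, ∀ i, g.toFun y ∈ closedBall (z i) (σ i) → δ₁ (T y) ≤ m i := by
    intro y hy i hi
    have h1 := hg3 y hy
    have h2 := hr1 (T y) (g.toFun y)
    rw [norm_sub_rev] at h2
    have h3 := (hrF _ (Q.sub i hi)).trans (hFm i _ hi)
    simp only [hδ₁] at *
    linarith
  have hXc : ∀ i, Disjoint (closedBall (z i) (σ i)) X → ∀ x ∈ X, σ i < ‖x - z i‖ := by
    intro i hi x hx
    by_contra hcon
    push Not at hcon
    exact disjoint_left.1 hi (by rwa [mem_closedBall, dist_eq_norm]) hx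
  -- the affine maps on the cores
  have haff : ∀ i, ∃ M : M3, M ∈ bddM m₀ ∧ ∃ w : V, ∀ y, ‖T y - c i‖ ≤ 2 * κ * σ i →
      ∀ᶠ y' in 𝓝 y, T y' = M *ᵥ y' - w := by
    intro i
    have h3 := Q.pos i
    have hD : closedBall (c i) (2 * κ * σ i) ⊆ Λ \ X := by
      intro v hv
      rw [mem_closedBall, dist_eq_norm] at hv
      refine ⟨Q.sub i ?_, fun hvX => ?_⟩
      · rw [mem_closedBall, dist_eq_norm]
        have h4 := norm_sub_le_norm_sub_add_norm_sub v (c i) (z i)
        have h5 := hc1 i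
        have h6 := hκσ1 i
        linarith
      · have := hc2 i v hvX
        linarith
    obtain ⟨M, hM, w, hw⟩ := C.aff _ hD (convex_closedBall _ _).isPreconnected
    exact ⟨M, hM, w, fun y hy => hw y (by rwa [mem_closedBall, dist_eq_norm])⟩
  choose M hM b hb using haff
  refine ⟨c, M, b, g, ⟨⟨hc1, fun i x hx => hc2 i x hx, fun y hy hyV i => ?_,
    fun y hy hyV i hi => ?_, fun i y hy => ?_, fun i hi => ?_, fun i y => ?_⟩, hg1, hg2,
    fun y hy => ?_, fun y hy i hi => ?_, fun y hy hX => ?_, hg5, hM, fun i y hy => ?_,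
    fun y hy => ?_⟩⟩
  · -- core
    have hx := C.V0X y hy hyV
    by_contra hcon
    push Not at hcon
    have h3 := Q.pos i
    have h4 := norm_sub_le_norm_sub_add_norm_sub (g.toFun y) (c i) (z i)
    have h5 := hc1 i
    have hk1 := hκσ1 i
    have hk0 := hκσ i
    have h6 : g.toFun y ∈ closedBall (z i) (σ i) := by
      rw [mem_closedBall, dist_eq_norm]; linarith
    have h7 := (hg3 y hy).trans (hcl y hy i h6)
    have h8 := hm1 i
    have h9 := hc2 i _ hx
    have h10 := norm_sub_le_norm_sub_add_norm_sub (T y) (g.toFun y) (c i)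
    rw [norm_sub_rev (T y) (g.toFun y)] at h10
    linarith
  · -- mid
    have hx := C.V0X y hy hyV
    by_contra hcon
    push Not at hcon
    have h3 := Q.pos i
    have h4 := hk i
    have h5 : 0 < k i * σ i := mul_pos h4 h3
    have h6 : g.toFun y ∈ closedBall (z i) (σ i) := by
      rw [mem_closedBall, dist_eq_norm]; linarith
    have h7 := (hg3 y hy).trans (hcl y hy i h6)
    have h8 := hm2' i
    have h9 := hXc i hi _ hx
    have h10 := norm_sub_le_norm_sub_add_norm_sub (T y) (g.toFun y) (z i)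
    rw [norm_sub_rev (T y) (g.toFun y)] at h10
    linarith
  · -- affcore
    rw [mem_closedBall, dist_eq_norm] at hy
    have h3 := Q.pos i
    have hk1 := hκσ1 i
    have hk0 := hκσ i
    have h6 : g.toFun y ∈ closedBall (z i) (σ i) := by
      rw [mem_closedBall, dist_eq_norm]
      have h4 := norm_sub_le_norm_sub_add_norm_sub (g.toFun y) (c i) (z i)
      have h5 := hc1 i
      linarith
    have hyΛ := hgΛ y (Q.sub i h6)
    obtain ⟨k1, k2⟩ := eventually_eq_of_ball (m := m i) (a := κ * σ i) (b := 2 * κ * σ i)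
      hTc C.opn hδc hg4 (hm0 i) (by have := hm1 i; linarith) (fun x hx => hc2 i x hx) hyΛ hy
      ((hg3 y hyΛ).trans (hcl y hyΛ i h6)) (hcl y hyΛ i h6)
    have k3 := hb i y k2.le
    filter_upwards [k1, k3] with y' a1 a2
    rw [a1, a2]
  · -- affmid
    have h3 := Q.pos i
    have h4 := hk i
    have h5 : 0 < k i * σ i := mul_pos h4 h3
    have hD : closedBall (z i) (σ i) ⊆ Λ \ X := fun v hv =>
      ⟨Q.sub i hv, fun hvX => disjoint_left.1 hi hv hvX⟩
    obtain ⟨M', -, w, hw⟩ := C.aff _ hD (convex_closedBall _ _).isPreconnected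
    refine ⟨M', w, fun y hy => ?_⟩
    rw [mem_closedBall, dist_eq_norm] at hy
    have h6 : g.toFun y ∈ closedBall (z i) (σ i) := by
      rw [mem_closedBall, dist_eq_norm]
      linarith
    have hyΛ := hgΛ y (Q.sub i h6)
    obtain ⟨k1, k2⟩ := eventually_eq_of_ball (m := m i) (a := (1 - k i) * σ i) (b := σ i)
      hTc C.opn hδc hg4 (hm0 i) (by have := hm2' i; linarith) (hXc i hi) hyΛ hy
      ((hg3 y hyΛ).trans (hcl y hyΛ i h6)) (hcl y hyΛ i h6)
    have k3 := hw y (by rw [mem_closedBall, dist_eq_norm]; exact k2.le)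
    filter_upwards [k1, k3] with y' a1 a2
    rw [a1, a2]
  · -- bd
    have h1 := (hM i).1 y
    have h2 := (hM i).2 y
    constructor
    · exact h1.trans (mul_le_mul_of_nonneg_right hm2 (norm_nonneg _))
    · exact h2.trans (mul_le_mul_of_nonneg_right hm2 (norm_nonneg _))
  · -- near
    have h1 := hg3 y hy
    have h2 := hrs _ (C.maps hy)
    have h3 := hr2 _ (C.maps hy)
    simp only [hδ₁] at h1
    linarith
  · -- near'
    have h1 := (hg3 y hy).trans (hcl y hy i hi)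
    have h2 := hm1 i
    have h3 := Q.pos i
    have h4 := hκσ i
    rw [hκ3]
    linarith
  · -- far
    refine hg4 y hy fun x hx => ?_
    have h1 := hX x hx
    have h2 := hrs _ (C.maps hy)
    have h3 := hr2 _ (C.maps hy)
    simp only [hδ₁]
    linarith
  · -- affT
    rw [mem_closedBall, dist_eq_norm] at hy
    exact hb i y (by linarith [hκσ i])
  · -- small
    have h1 := hg3 y hy
    have h2 := hrε _ (C.maps hy)
    have h3 := hr2 _ (C.maps hy)
    simp only [hδ₁] at h1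
    linarith

end Vale.Agent.P073.H819
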