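import Vale.Agent.P073.H819.GCAlign

/-!
# P073, block B10: composition of generalised collapses

If `T` and `R` are generalised collapses of `Λ` (`R` with skeleton `Y`, and near every point, off
`Y`, the fibres of `R` are close to at most `P` points and `R` is affine there), then `R ∘ T` is a
generalised collapse with skeleton `Y ∪ R '' X`.
-/

open Set Metric Topology Filter WithLp MeasureTheory Matrix
open scoped ENNReal InnerProductSpace

namespace Vale.Agent.P073.H819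

open _root_.P073
open Vale.Agent.P073.St (V)
open Vale.Agent.P073.H726 (LBOn compl_nonempty exists_lower continuous_of_lip)
open Vale.Agent.P073.H851 (M3 bddM)
open Vale.Agent.P073.H239 (GC AdaptedN Approx)

/-- near every `x ∈ Λ`, off `Y`, the fibres of `R` are near at most `P` points of `Λ` and `R` is
given by at most `P` invertible affine maps there -/
def Pieces (P : ℕ) (Λ Y : Set V) (R : V → V) : Prop :=
  ∀ x ∈ Λ, ∃ s : Finset (V × M3 × V), s.card ≤ P ∧ (∀ q ∈ s, q.1 ∈ Λ ∧ q.2.1.det ≠ 0) ∧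
    ∀ ε > 0, ∀ᶠ x' in 𝓝 x, x' ∉ Y → ∀ y, R y = x' →
      ∃ q ∈ s, ‖y - q.1‖ < ε ∧ x' = q.2.1 *ᵥ y - q.2.2

theorem nonneg_of_mem_bddM {m : ℝ} {M : M3} (h : M ∈ bddM m) : 0 ≤ m := by
  by_contra hm
  push Not at hm
  have h1 := h.2 (fun _ => 1)
  have h2 : (0:ℝ) < ‖(fun _ => 1 : V)‖ := by
    rw [norm_pos_iff]
    intro h
    have := congrFun h 0
    simp at this
  nlinarith [norm_nonneg (M *ᵥ (fun _ => 1 : V))]

section
variable {N N₁ P : ℕ} {C₀ m₀ C₁ m₁ : ℝ} {Λ V₀ V₁ X Y : Set V} {T R : V → V}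

/-- a generalised collapse is surjective -/
theorem gc_surj (C : GC N C₀ m₀ Λ V₀ X T) (x : V) : ∃ y, T y = x := by
  by_cases hx : x ∈ Λ
  swap
  · exact ⟨x, C.off x hx⟩
  have hK : IsCompact (closure Λ) := C.bdd.isCompact_closure
  have hcl : IsClosed (T '' closure Λ) := (hK.image C.cont).isClosed
  have hmem : x ∈ closure (T '' closure Λ) := by
    rw [Metric.mem_closure_iff]
    intro ε hε
    have hlb : LBOn Λ fun _ => ε / 2 :=
      LBOn.of_continuous C.opn continuous_const fun _ _ => by positivity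
    obtain ⟨g, -, -, h3, -, -⟩ := C.approx (fun _ => ε / 2) hlb 1 one_pos
    refine ⟨T (g.invFun x), ⟨g.invFun x, subset_closure (g.mapsTo_inv hx), rfl⟩, ?_⟩
    have h4 := h3 (g.invFun x) (g.mapsTo_inv hx)
    rw [g.right_inv hx] at h4
    rw [dist_eq_norm]
    linarith
  rw [hcl.closure_eq] at hmem
  obtain ⟨y, -, hy⟩ := hmem
  exact ⟨y, hy⟩

/-- a generalised collapse is a closed map -/
theorem gc_isClosedMap (C : GC N C₀ m₀ Λ V₀ X T) : IsClosedMap T := by
  have : IsProperMap T := by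
    rw [isProperMap_iff_isCompact_preimage]
    refine ⟨C.cont, fun K hK => ?_⟩
    refine Metric.isCompact_of_isClosed_isBounded (hK.isClosed.preimage C.cont) ?_
    refine (C.bdd.union hK.isBounded).subset fun y hy => ?_
    by_cases hyΛ : y ∈ Λ
    · exact Or.inl hyΛ
    · right
      have := C.off y hyΛ
      rw [mem_preimage, this] at hy
      exact hy
  exact this.isClosedMap

theorem gc_mem (C : GC N C₀ m₀ Λ V₀ X T) {y : V} (h : T y ∈ Λ) : y ∈ Λ := by
  by_contra hc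
  rw [C.off y hc] at h
  exact hc h

/-- the plane `{φ = c}` under the affine map `y ↦ M y - b` -/
noncomputable def pushPl (M : M3) (b : V) (q : (V →L[ℝ] ℝ) × ℝ) : (V →L[ℝ] ℝ) × ℝ :=
  (q.1.comp (LinearMap.toContinuousLinearMap (Matrix.mulVecLin M⁻¹)),
    q.2 - q.1 (M⁻¹ *ᵥ b))

theorem pushPl_apply {M : M3} (hM : M.det ≠ 0) {b y : V} {q : (V →L[ℝ] ℝ) × ℝ}
    (h : q.1 y = q.2) : (pushPl M b q).1 (M *ᵥ y - b) = (pushPl M b q).2 := by
  have hu : IsUnit M.det := isUnit_iff_ne_zero.2 hM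
  show q.1 (M⁻¹ *ᵥ (M *ᵥ y - b)) = q.2 - q.1 (M⁻¹ *ᵥ b)
  rw [Matrix.mulVec_sub, Matrix.mulVec_mulVec, Matrix.nonsing_inv_mul _ hu, Matrix.one_mulVec,
    map_sub, h]

theorem pushPl_ne {M : M3} (hM : M.det ≠ 0) {b : V} {q : (V →L[ℝ] ℝ) × ℝ}
    (h : q.1 ≠ 0) : (pushPl M b q).1 ≠ 0 := by
  have hu : IsUnit M.det := isUnit_iff_ne_zero.2 hM
  intro h0
  apply h
  ext y
  have h1 : (pushPl M b q).1 (M *ᵥ y) = 0 := by rw [h0]; rfl
  have h2 : q.1 (M⁻¹ *ᵥ (M *ᵥ y)) = 0 := h1
  rw [Matrix.mulVec_mulVec, Matrix.nonsing_inv_mul _ hu, Matrix.one_mulVec] at h2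
  rw [h2]; rfl

/-- **composition of generalised collapses** -/
theorem gc_comp (C : GC N C₀ m₀ Λ V₀ X T) (R' : GC N₁ C₁ m₁ Λ V₁ Y R) (hP : Pieces P Λ Y R) :
    GC (N₁ + P * N) (C₁ * C₀) (m₁ * m₀) Λ V₀ (Y ∪ R '' X) (R ∘ T) where
  opn := C.opn
  bdd := C.bdd
  C0 := mul_nonneg R'.C0 C.C0
  cont := R'.cont.comp C.cont
  lip y y' := by
    refine (R'.lip _ _).trans ?_
    rw [mul_assoc]
    exact mul_le_mul_of_nonneg_left (C.lip y y') R'.C0
  off y hy := by rw [Function.comp_apply, C.off y hy, R'.off y hy]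
  maps := R'.maps.comp C.maps
  Xsub := union_subset R'.Xsub ((image_mono C.Xsub).trans R'.maps.image_subset)
  Xcl := by
    have h1 : IsClosed (R '' (X ∪ Λᶜ)) := gc_isClosedMap R' _ C.Xcl
    have h2 : (Y ∪ R '' X) ∪ Λᶜ = (Y ∪ Λᶜ) ∪ R '' (X ∪ Λᶜ) := by
      have h3 : R '' Λᶜ = Λᶜ := by
        ext x
        constructor
        · rintro ⟨y, hy, rfl⟩
          rw [R'.off y hy]; exact hy
        · intro hx
          exact ⟨x, hx, R'.off x hx⟩
      rw [image_union, h3]
      ext x; simp only [mem_union]; tauto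
    rw [h2]
    exact R'.Xcl.union h1
  planes := by
    classical
    intro x hx
    obtain ⟨s₁, hs1, hs2, hs3⟩ := R'.planes x hx
    obtain ⟨s, hc1, hc2, hc3⟩ := hP x hx
    have hq : ∀ p : V, ∃ t : Finset ((V →L[ℝ] ℝ) × ℝ), t.card ≤ N ∧ (∀ q ∈ t, q.1 ≠ 0) ∧
        (p ∈ Λ → ∀ᶠ y in 𝓝 p, y ∈ X → ∃ q ∈ t, q.1 y = q.2) := by
      intro p
      by_cases hp : p ∈ Λ
      · obtain ⟨t, h1, h2, h3⟩ := C.planes p hp
        exact ⟨t, h1, h2, fun _ => h3⟩
      · exact ⟨∅, by simp, by simp, fun h => absurd h hp⟩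
    choose t ht1 ht2 ht3 using hq
    -- a common radius
    have hε : ∃ ε > 0, ∀ q ∈ s, ∀ y, ‖y - q.1‖ < ε → y ∈ X → ∃ p ∈ t q.1, p.1 y = p.2 := by
      clear hc1 hc3
      induction s using Finset.induction_on with
      | empty => exact ⟨1, one_pos, by simp⟩
      | insert q s hqs ih =>
        obtain ⟨ε, hε, h1⟩ := ih fun q' hq' => hc2 q' (Finset.mem_insert_of_mem hq')
        have h2 := ht3 q.1 (hc2 q (Finset.mem_insert_self _ _)).1
        obtain ⟨ε', hε', h3⟩ := Metric.eventually_nhds_iff.1 h2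
        refine ⟨min ε ε', lt_min hε hε', fun q' hq' y hy hyX => ?_⟩
        rcases Finset.mem_insert.1 hq' with h | h
        · subst h
          exact h3 (by rw [dist_eq_norm]; exact hy.trans_le (min_le_right _ _)) hyX
        · exact h1 q' h y (hy.trans_le (min_le_left _ _)) hyX
    obtain ⟨ε, hε, h1⟩ := hε
    refine ⟨s₁ ∪ s.biUnion fun q => (t q.1).image (pushPl q.2.1 q.2.2), ?_, ?_, ?_⟩
    · refine (Finset.card_union_le _ _).trans (Nat.add_le_add hs1 ?_)
      refine (Finset.card_biUnion_le_card_mul _ _ N fun q _ => ?_).trans ?_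
      · exact Finset.card_image_le.trans (ht1 _)
      · exact Nat.mul_le_mul_right _ hc1
    · intro p hp
      rcases Finset.mem_union.1 hp with h | h
      · exact hs2 p h
      · obtain ⟨q, hq, hpq⟩ := Finset.mem_biUnion.1 h
        obtain ⟨p', hp', rfl⟩ := Finset.mem_image.1 hpq
        exact pushPl_ne (hc2 q hq).2 (ht2 _ _ hp')
    · filter_upwards [hs3, hc3 ε hε] with x' k1 k2 hx'
      by_cases hY : x' ∈ Y
      · obtain ⟨q, hq, h3⟩ := k1 hY
        exact ⟨q, Finset.mem_union_left _ hq, h3⟩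
      · rcases hx' with h | ⟨y, hyX, hy⟩
        · exact absurd h hY
        · obtain ⟨q, hq, h3, h4⟩ := k2 hY y hy
          obtain ⟨p, hp, h5⟩ := h1 q hq y h3 hyX
          refine ⟨pushPl q.2.1 q.2.2 p, Finset.mem_union_right _
            (Finset.mem_biUnion.2 ⟨q, hq, Finset.mem_image_of_mem _ hp⟩), ?_⟩
          rw [h4]
          exact pushPl_apply (hc2 q hq).2 h5
  V0X y hy h0 := Or.inr ⟨T y, C.V0X y hy h0, rfl⟩
  aff D hD hc := by
    have hDY : D ⊆ Λ \ Y := fun x hx => ⟨(hD hx).1, fun h => (hD hx).2 (Or.inl h)⟩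
    obtain ⟨M₁, hM₁, w₁, hw₁⟩ := R'.aff D hDY hc
    have hu : IsUnit M₁.det := isUnit_iff_ne_zero.2 (H851.det_ne_zero_of_bdd hM₁)
    have hinv : ∀ y, R y ∈ D → M₁⁻¹ *ᵥ (R y + w₁) = y := by
      intro y hy
      have h1 := (hw₁ y hy).self_of_nhds
      rw [h1, sub_add_cancel, Matrix.mulVec_mulVec, Matrix.nonsing_inv_mul _ hu,
        Matrix.one_mulVec]
    have hD' : R ⁻¹' D = (fun x => M₁⁻¹ *ᵥ (x + w₁)) '' D := by
      ext y
      constructor
      · intro hy
        exact ⟨R y, hy, hinv y hy⟩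
      · rintro ⟨x, hx, rfl⟩
        obtain ⟨y, rfl⟩ := gc_surj R' x
        show R (M₁⁻¹ *ᵥ (R y + w₁)) ∈ D
        rw [hinv y hx]; exact hx
    have hpre : IsPreconnected (R ⁻¹' D) := by
      rw [hD']
      refine hc.image _ (Continuous.continuousOn ?_)
      exact ((Matrix.mulVecLin M₁⁻¹).continuous_of_finiteDimensional).comp
        (continuous_id.add continuous_const)
    have hsub : R ⁻¹' D ⊆ Λ \ X := fun y hy =>
      ⟨gc_mem R' (hD hy).1, fun h => (hD hy).2 (Or.inr ⟨y, h, rfl⟩)⟩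
    obtain ⟨M, hM, w, hw⟩ := C.aff _ hsub hpre
    refine ⟨M₁ * M, H851.mul_mem_bddM (nonneg_of_mem_bddM hM₁) hM₁ hM, M₁ *ᵥ w + w₁,
      fun y hy => ?_⟩
    filter_upwards [hw y hy, C.cont.continuousAt.eventually (hw₁ (T y) hy)] with y' h1 h2
    rw [Function.comp_apply, h2, h1, Matrix.mulVec_sub, Matrix.mulVec_mulVec]
    abel
  approx := by
    intro δ hδ ε hε
    have hC1 := R'.C0
    have hC0 := C.C0
    obtain ⟨r, hr1, hr2, hr3, hr4, hr5⟩ := exists_lower C.opn (compl_nonempty C.bdd) hδ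
      (fun y hy => hδ.pos hy)
    have hrc : Continuous r := continuous_of_lip hr1
    set L : ℝ := C₁ * Real.sqrt 3 + 1 with hL
    have hL1 : 1 ≤ L := by
      have : 0 ≤ C₁ * Real.sqrt 3 := by positivity
      linarith
    have hRL : ∀ u u', ‖R u - R u'‖ ≤ L * ‖u - u'‖ := by
      intro u u'
      have h1 := (H726.norm_le_eu (R u - R u')).trans (R'.lip u u')
      have h2 : ‖toLp 2 (u - u')‖ ≤ Real.sqrt 3 * ‖u - u'‖ := by
        have := H726.eu_le_of_abs_le (norm_nonneg (u - u')) fun k => norm_le_pi_norm (u - u') k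
        simpa using this
      calc ‖R u - R u'‖ ≤ C₁ * ‖toLp 2 (u - u')‖ := h1
        _ ≤ C₁ * (Real.sqrt 3 * ‖u - u'‖) := by gcongr
        _ ≤ L * ‖u - u'‖ := by
          rw [hL]; nlinarith [norm_nonneg (u - u')]
    set η : ℝ := min 1 (ε / (C₁ + C₀ + 1)) with hη
    have hη0 : 0 < η := by positivity
    have hη1 : η ≤ 1 := min_le_left _ _
    have hη2 : η * (C₁ + C₀ + 1) ≤ ε := by
      rw [← le_div_iff₀ (by positivity)]; exact min_le_right _ _
    obtain ⟨h, hh1, hh2, hh3, hh4, hh5⟩ := R'.approx (fun x => r x / 4)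
      (LBOn.of_continuous C.opn (hrc.div_const 4) fun y hy => by
        have := hr2 y hy; positivity) η hη0
    obtain ⟨g, hg1, hg2, hg3, hg4, hg5⟩ := C.approx (fun u => r (R u) / (4 * L))
      (LBOn.of_continuous C.opn ((hrc.comp R'.cont).div_const _) fun y hy => by
        have := hr2 _ (R'.maps hy); positivity) η hη0
    refine ⟨g.trans h, hh1.comp hg1, fun y hy => ?_, fun y hy => ?_, fun y hy hX => ?_,
      fun y y' => ?_⟩
    · show h.toFun (g.toFun y) = y
      rw [hg2 y hy, hh2 y hy]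
    · show ‖h.toFun (g.toFun y) - R (T y)‖ ≤ δ (R (T y))
      have hTy := C.maps hy
      have h1 := hh3 (g.toFun y) (g.mapsTo hy)
      have h2 := hRL (g.toFun y) (T y)
      have h3 := hg3 y hy
      have h4 := hr1 (R (g.toFun y)) (R (T y))
      have h5 := hr2 _ (R'.maps hTy)
      have h6 := hr3 _ (R'.maps hTy)
      have h7 : L * (r (R (T y)) / (4 * L)) = r (R (T y)) / 4 := by
        have : L ≠ 0 := by positivity
        field_simp
      have h8 : L * ‖g.toFun y - T y‖ ≤ L * (r (R (T y)) / (4 * L)) := by gcongr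
      have h9 := norm_sub_le_norm_sub_add_norm_sub (h.toFun (g.toFun y)) (R (g.toFun y)) (R (T y))
      linarith
    · show h.toFun (g.toFun y) = R (T y)
      have hTy := C.maps hy
      have h5 := hr2 _ (R'.maps hTy)
      have h6 := hr3 _ (R'.maps hTy)
      have e1 : g.toFun y = T y := by
        refine hg4 y hy fun x hx => ?_
        have h1 : δ (R (T y)) < ‖R (T y) - R x‖ := hX (R x) (Or.inr ⟨x, hx, rfl⟩)
        have h2 := hRL (T y) x
        show r (R (T y)) / (4 * L) < ‖T y - x‖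
        rw [div_lt_iff₀ (by positivity)]
        nlinarith [norm_nonneg (T y - x)]
      rw [e1]
      refine hh4 _ hTy fun x hx => ?_
      have h1 : δ (R (T y)) < ‖R (T y) - x‖ := hX x (Or.inl hx)
      show r (R (T y)) / 4 < ‖R (T y) - x‖
      linarith
    · show ‖toLp 2 (h.toFun (g.toFun y) - h.toFun (g.toFun y'))‖ ≤ _
      refine (hh5 _ _).trans ?_
      have h1 := hg5 y y'
      have h2 := norm_nonneg (toLp 2 (y - y'))
      calc (C₁ + η) * ‖toLp 2 (g.toFun y - g.toFun y')‖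
          ≤ (C₁ + η) * ((C₀ + η) * ‖toLp 2 (y - y')‖) := by gcongr
        _ = ((C₁ + η) * (C₀ + η)) * ‖toLp 2 (y - y')‖ := by ring
        _ ≤ (C₁ * C₀ + ε) * ‖toLp 2 (y - y')‖ := by
          apply mul_le_mul_of_nonneg_right _ h2
          nlinarith

end

end Vale.Agent.P073.H819
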